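import Mathlib

section

namespace Vale.Agent.P113

open scoped ContDiff Topology
open Set Filter

/-- The bump `exp (-1/s) exp (-1/(1-s))` on `(0,1)`, zero elsewhere. -/
noncomputable def bump (s : ℝ) : ℝ := expNegInvGlue s * expNegInvGlue (1 - s)

theorem bump_contDiff {n : ℕ∞} : ContDiff ℝ n bump := by
  unfold bump
  exact expNegInvGlue.contDiff.mul (expNegInvGlue.contDiff.comp (contDiff_const.sub contDiff_id))

theorem bump_of_nonpos {s : ℝ} (h : s ≤ 0) : bump s = 0 := by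
  simp [bump, expNegInvGlue.zero_of_nonpos h]

theorem bump_of_one_le {s : ℝ} (h : 1 ≤ s) : bump s = 0 := by
  simp [bump, expNegInvGlue.zero_of_nonpos (show 1 - s ≤ 0 by linarith)]

theorem bump_pos {s : ℝ} (h0 : 0 < s) (h1 : s < 1) : 0 < bump s :=
  mul_pos (expNegInvGlue.pos_of_pos h0) (expNegInvGlue.pos_of_pos (by linarith))

theorem bump_nonneg (s : ℝ) : 0 ≤ bump s :=
  mul_nonneg (expNegInvGlue.nonneg _) (expNegInvGlue.nonneg _)

theorem expNegInvGlue_le_one (s : ℝ) : expNegInvGlue s ≤ 1 := by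
  unfold expNegInvGlue
  split_ifs with h
  · exact zero_le_one
  · push Not at h
    exact Real.exp_le_one_iff.2 (by simpa using h.le)

theorem bump_le_one (s : ℝ) : bump s ≤ 1 :=
  mul_le_one₀ (expNegInvGlue_le_one _) (expNegInvGlue.nonneg _) (expNegInvGlue_le_one _)

/-- On `(0,1)` the bump is `exp (-(1/s + 1/(1-s)))`. -/
theorem bump_eq {s : ℝ} (h0 : 0 < s) (h1 : s < 1) :
    bump s = Real.exp (-(s⁻¹ + (1 - s)⁻¹)) := by
  unfold bump expNegInvGlue
  rw [if_neg (not_le.2 h0), if_neg (not_le.2 (by linarith)), ← Real.exp_add]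
  congr 1
  ring

end Vale.Agent.P113
end

section

namespace Vale.Agent.P113

open scoped ContDiff Topology
open Set Filter

/-- Periodization of a function supported in `(0,1)`. -/
noncomputable def per (g : ℝ → ℝ) (x : ℝ) : ℝ := g (Int.fract x)

theorem per_periodic (g : ℝ → ℝ) : Function.Periodic (per g) 1 := by
  intro x
  simp [per]

theorem iteratedDeriv_vanish {g : ℝ → ℝ} (hg : ContDiff ℝ ∞ g)
    (h0 : ∀ s ≤ 0, g s = 0) (h1 : ∀ s, 1 ≤ s → g s = 0) (n : ℕ) :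
    (∀ s ≤ 0, iteratedDeriv n g s = 0) ∧ (∀ s, 1 ≤ s → iteratedDeriv n g s = 0) := by
  have hc : Continuous (iteratedDeriv n g) := hg.continuous_iteratedDeriv n (by exact_mod_cast le_top)
  have hz : ∀ s : ℝ, iteratedDeriv n (fun _ : ℝ => (0:ℝ)) s = 0 := by
    intro s
    have := iteratedDeriv_const (n := n) (c := (0:ℝ)) (x := s)
    simpa using this
  have hcl : IsClosed {s : ℝ | iteratedDeriv n g s = 0} := isClosed_eq hc continuous_const
  constructor
  · have hE : EqOn g (fun _ => 0) (Iio 0) := fun s hs => h0 s (le_of_lt hs)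
    have h := hE.iteratedDeriv_of_isOpen isOpen_Iio n
    have hsub : Iio (0:ℝ) ⊆ {s : ℝ | iteratedDeriv n g s = 0} := fun s hs => by
      have := h hs
      rw [hz] at this
      exact this
    have := hcl.closure_subset_iff.2 hsub
    rw [closure_Iio] at this
    exact fun s hs => this hs
  · have hE : EqOn g (fun _ => 0) (Ioi 1) := fun s hs => h1 s (le_of_lt hs)
    have h := hE.iteratedDeriv_of_isOpen isOpen_Ioi n
    have hsub : Ioi (1:ℝ) ⊆ {s : ℝ | iteratedDeriv n g s = 0} := fun s hs => by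
      have := h hs
      rw [hz] at this
      exact this
    have := hcl.closure_subset_iff.2 hsub
    rw [closure_Ioi] at this
    exact fun s hs => this hs

theorem per_eventually {g : ℝ → ℝ}
    (h0 : ∀ s ≤ 0, g s = 0) (h1 : ∀ s, 1 ≤ s → g s = 0) (x : ℝ) :
    per g =ᶠ[𝓝 x] fun y => g (y - ⌊x⌋) + g (y - (⌊x⌋ - 1)) := by
  have hI : Ioo ((⌊x⌋ : ℝ) - 1) (⌊x⌋ + 1) ∈ 𝓝 x :=
    Ioo_mem_nhds (by linarith [Int.floor_le x]) (Int.lt_floor_add_one x)
  filter_upwards [hI] with y hy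
  rcases le_or_gt (⌊x⌋ : ℝ) y with h | h
  · have hf : ⌊y⌋ = ⌊x⌋ := Int.floor_eq_iff.2 ⟨h, hy.2⟩
    have : Int.fract y = y - ⌊x⌋ := by rw [Int.fract, hf]
    rw [per, this, h1 (y - (⌊x⌋ - 1)) (by linarith), add_zero]
  · have hf : ⌊y⌋ = ⌊x⌋ - 1 := Int.floor_eq_iff.2 ⟨by push_cast; exact hy.1.le, by push_cast; linarith⟩
    have : Int.fract y = y - (⌊x⌋ - 1) := by rw [Int.fract, hf]; push_cast; ring
    rw [per, this, h0 (y - ⌊x⌋) (by linarith), zero_add]

theorem per_contDiff {g : ℝ → ℝ} (hg : ContDiff ℝ ∞ g)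
    (h0 : ∀ s ≤ 0, g s = 0) (h1 : ∀ s, 1 ≤ s → g s = 0) : ContDiff ℝ ∞ (per g) := by
  rw [contDiff_iff_contDiffAt]
  intro x
  refine ContDiffAt.congr_of_eventuallyEq ?_ (per_eventually h0 h1 x)
  exact ((hg.comp (contDiff_id.sub contDiff_const)).add
    (hg.comp (contDiff_id.sub contDiff_const))).contDiffAt

theorem iteratedDeriv_per {g : ℝ → ℝ} (hg : ContDiff ℝ ∞ g)
    (h0 : ∀ s ≤ 0, g s = 0) (h1 : ∀ s, 1 ≤ s → g s = 0) (n : ℕ) :
    iteratedDeriv n (per g) = per (iteratedDeriv n g) := by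
  funext x
  rw [(per_eventually h0 h1 x).iteratedDeriv_eq n]
  have hgn : ∀ y, ContDiffAt ℝ n g y := fun y => (hg.of_le (by exact_mod_cast le_top)).contDiffAt
  rw [show (fun y => g (y - ⌊x⌋) + g (y - (⌊x⌋ - 1))) =
    (fun y => g (y - ⌊x⌋)) + (fun y => g (y - (⌊x⌋ - 1))) from rfl]
  rw [iteratedDeriv_add]
  · rw [iteratedDeriv_comp_sub_const, iteratedDeriv_comp_sub_const]
    simp only []
    rw [(iteratedDeriv_vanish hg h0 h1 n).2 (x - (⌊x⌋ - 1)) (by linarith [Int.floor_le x]), add_zero]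
    rfl
  · exact ((hg.comp (contDiff_id.sub contDiff_const)).of_le (by exact_mod_cast le_top)).contDiffAt
  · exact ((hg.comp (contDiff_id.sub contDiff_const)).of_le (by exact_mod_cast le_top)).contDiffAt

/-- The periodic bump. -/
noncomputable def bper : ℝ → ℝ := per bump

/-- The pulse train: equal to the periodic bump for `t ≥ 1`, zero on `[0,1)`. -/
noncomputable def pulse (t : ℝ) : ℝ := bper t - bump t

theorem bper_contDiff : ContDiff ℝ ∞ bper :=
  per_contDiff bump_contDiff (fun _ h => bump_of_nonpos h) (fun _ h => bump_of_one_le h)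

theorem iteratedDeriv_bper (n : ℕ) : iteratedDeriv n bper = per (iteratedDeriv n bump) :=
  iteratedDeriv_per bump_contDiff (fun _ h => bump_of_nonpos h) (fun _ h => bump_of_one_le h) n

theorem pulse_contDiff : ContDiff ℝ ∞ pulse := bper_contDiff.sub bump_contDiff

theorem iteratedDeriv_pulse (n : ℕ) (t : ℝ) :
    iteratedDeriv n pulse t = iteratedDeriv n bump (Int.fract t) - iteratedDeriv n bump t := by
  have : pulse = bper - bump := rfl
  rw [this, iteratedDeriv_sub, iteratedDeriv_bper]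
  · rfl
  · exact (bper_contDiff.of_le (by exact_mod_cast le_top)).contDiffAt
  · exact bump_contDiff.contDiffAt

theorem pulse_of_lt_one {t : ℝ} (h0 : 0 ≤ t) (h : t < 1) : pulse t = 0 := by
  have : Int.fract t = t := Int.fract_eq_self.2 ⟨h0, h⟩
  simp [pulse, bper, per, this]

theorem pulse_of_one_le {t : ℝ} (h : 1 ≤ t) : pulse t = bper t := by
  simp [pulse, bump_of_one_le h]

theorem pulse_nonneg {t : ℝ} (h0 : 0 ≤ t) : 0 ≤ pulse t := by
  rcases lt_or_ge t 1 with h | h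
  · rw [pulse_of_lt_one h0 h]
  · rw [pulse_of_one_le h]; exact bump_nonneg _

theorem bump_mul_pulse (t : ℝ) : bump t * pulse t = 0 := by
  rcases le_or_gt t 0 with h | h
  · simp [bump_of_nonpos h]
  · rcases lt_or_ge t 1 with h' | h'
    · simp [pulse_of_lt_one h.le h']
    · simp [bump_of_one_le h']

end Vale.Agent.P113
end

section

namespace Vale.Agent.P113

open scoped ContDiff Topology
open Set Filter

/-! ## Derivatives of the bump -/

theorem iteratedDeriv_bump_hasDerivAt (n : ℕ) (y : ℝ) :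
    HasDerivAt (iteratedDeriv n bump) (iteratedDeriv (n + 1) bump y) y := by
  rw [iteratedDeriv_succ]
  apply DifferentiableAt.hasDerivAt
  have h : ContDiff ℝ ((n : ℕ∞) + 1 : ℕ∞) bump := bump_contDiff
  exact (h.differentiable_iteratedDeriv n (by norm_cast; exact Nat.lt_succ_self n)) y

theorem expNegInvGlue_hasDerivAt (x : ℝ) :
    HasDerivAt expNegInvGlue ((x⁻¹) ^ 2 * expNegInvGlue x) x := by
  have h := expNegInvGlue.hasDerivAt_polynomial_eval_inv_mul (1 : Polynomial ℝ) x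
  simpa using h

theorem bump_hasDerivAt (y : ℝ) :
    HasDerivAt bump ((y⁻¹) ^ 2 * expNegInvGlue y * expNegInvGlue (1 - y)
      - expNegInvGlue y * (((1 - y)⁻¹) ^ 2 * expNegInvGlue (1 - y))) y := by
  have h1 := expNegInvGlue_hasDerivAt y
  have h2 : HasDerivAt (fun s : ℝ => expNegInvGlue (1 - s))
      (((1 - y)⁻¹) ^ 2 * expNegInvGlue (1 - y) * (-1)) y := by
    have h3 : HasDerivAt (fun s : ℝ => 1 - s) (-1) y := by
      simpa using (hasDerivAt_id y).const_sub 1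
    exact (expNegInvGlue_hasDerivAt (1 - y)).comp y h3
  exact (h1.mul h2).congr_deriv (by ring)

/-- The differential equation of the bump. -/
theorem bump_ode (y : ℝ) :
    (y - y ^ 2) ^ 2 * iteratedDeriv 1 bump y = (1 - 2 * y) * bump y := by
  rw [iteratedDeriv_one, (bump_hasDerivAt y).deriv]
  by_cases h0 : y = 0
  · subst h0; simp [bump, expNegInvGlue.zero_of_nonpos]
  by_cases h1 : y = 1
  · subst h1; simp [bump, expNegInvGlue.zero_of_nonpos]
  have h1' : (1 - y) ≠ 0 := sub_ne_zero.2 (Ne.symm h1)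
  unfold bump
  have e : (y⁻¹) ^ 2 * expNegInvGlue y * expNegInvGlue (1 - y)
      - expNegInvGlue y * (((1 - y)⁻¹) ^ 2 * expNegInvGlue (1 - y))
      = (expNegInvGlue y * expNegInvGlue (1 - y)) * ((y⁻¹) ^ 2 - ((1 - y)⁻¹) ^ 2) := by ring
  rw [e]
  have e2 : (y - y ^ 2) ^ 2 * ((y⁻¹) ^ 2 - ((1 - y)⁻¹) ^ 2) = 1 - 2 * y := by
    field_simp
    ring
  calc (y - y ^ 2) ^ 2 * ((expNegInvGlue y * expNegInvGlue (1 - y)) *
        ((y⁻¹) ^ 2 - ((1 - y)⁻¹) ^ 2))
      = (expNegInvGlue y * expNegInvGlue (1 - y)) *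
        ((y - y ^ 2) ^ 2 * ((y⁻¹) ^ 2 - ((1 - y)⁻¹) ^ 2)) := by ring
    _ = _ := by rw [e2]; ring

/-- The recursion satisfied by the derivatives of the bump. -/
def BumpRec (n : ℕ) (y : ℝ) : Prop :=
  (y - y ^ 2) ^ 2 * iteratedDeriv (n + 1) bump y
    = (1 - 2 * y - n * (2 * y - 6 * y ^ 2 + 4 * y ^ 3)) * iteratedDeriv n bump y
      - (2 * n + n * (n - 1) * (1 - 6 * y + 6 * y ^ 2)) * iteratedDeriv (n - 1) bump y
      - n * (n - 1) * (n - 2) * (4 * y - 2) * iteratedDeriv (n - 2) bump y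
      - n * (n - 1) * (n - 2) * (n - 3) * iteratedDeriv (n - 3) bump y

theorem bumpRec_step (n : ℕ) (h : ∀ y, BumpRec n y) (y : ℝ) : BumpRec (n + 1) y := by
  have hB := iteratedDeriv_bump_hasDerivAt
  have hw : HasDerivAt (fun y : ℝ => (y - y ^ 2) ^ 2) (2 * y - 6 * y ^ 2 + 4 * y ^ 3) y := by
    have := (((hasDerivAt_id' y).sub ((hasDerivAt_id' y).pow 2)).pow 2)
    exact this.congr_deriv (by simp only [Pi.sub_apply, Pi.pow_apply]; push_cast; ring)
  have hw1 : HasDerivAt (fun y : ℝ => 1 - 2 * y - n * (2 * y - 6 * y ^ 2 + 4 * y ^ 3))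
      (-2 - n * (2 - 12 * y + 12 * y ^ 2)) y := by
    have h1 := (hasDerivAt_id' y).const_mul (2 : ℝ)
    have h2 := ((hasDerivAt_id' y).pow 2).const_mul (6 : ℝ)
    have h3 := ((hasDerivAt_id' y).pow 3).const_mul (4 : ℝ)
    have := (h1.const_sub 1).sub (((h1.sub h2).add h3).const_mul (n : ℝ))
    exact this.congr_deriv (by push_cast; ring)
  have hw2 : HasDerivAt (fun y : ℝ => 2 * n + n * (n - 1) * (1 - 6 * y + 6 * y ^ 2))
      (n * (n - 1) * (-6 + 12 * y)) y := by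
    have h1 := (hasDerivAt_id' y).const_mul (6 : ℝ)
    have h2 := ((hasDerivAt_id' y).pow 2).const_mul (6 : ℝ)
    have := (((h1.const_sub 1).add h2).const_mul ((n : ℝ) * (n - 1))).const_add (2 * (n : ℝ))
    exact this.congr_deriv (by push_cast; ring)
  have hw3 : HasDerivAt (fun y : ℝ => n * (n - 1) * (n - 2) * (4 * y - 2))
      ((n : ℝ) * (n - 1) * (n - 2) * 4) y := by
    have h1 := (hasDerivAt_id' y).const_mul (4 : ℝ)
    have := (h1.sub_const 2).const_mul ((n : ℝ) * (n - 1) * (n - 2))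
    exact this.congr_deriv (by simp)
  have hL := hw.mul (hB (n + 1) y)
  have hR := (((hw1.mul (hB n y)).sub (hw2.mul (hB (n - 1) y))).sub
    (hw3.mul (hB (n - 2) y))).sub
      ((hB (n - 3) y).const_mul ((n : ℝ) * (n - 1) * (n - 2) * (n - 3)))
  have hfun : (fun y : ℝ => (y - y ^ 2) ^ 2) * iteratedDeriv (n + 1) bump
      = (((fun y : ℝ => 1 - 2 * y - n * (2 * y - 6 * y ^ 2 + 4 * y ^ 3)) * iteratedDeriv n bump
        - (fun y : ℝ => 2 * n + n * (n - 1) * (1 - 6 * y + 6 * y ^ 2)) *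
            iteratedDeriv (n - 1) bump)
        - (fun y : ℝ => n * (n - 1) * (n - 2) * (4 * y - 2)) * iteratedDeriv (n - 2) bump)
        - (fun y : ℝ => (n : ℝ) * (n - 1) * (n - 2) * (n - 3) * iteratedDeriv (n - 3) bump y) := by
    funext z
    exact h z
  rw [hfun] at hL
  have key := hL.unique hR
  unfold BumpRec
  rcases n with _ | _ | _ | n
  · simp at key ⊢
    linarith
  · simp at key ⊢
    linarith
  · simp at key ⊢
    linarith
  · simp only [show n + 1 + 1 + 1 - 1 = n + 2 from rfl, show n + 1 + 1 + 1 - 2 = n + 1 from rfl,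
      show n + 1 + 1 + 1 - 3 = n from rfl, show n + 1 + 1 + 1 + 1 - 1 = n + 3 from rfl,
      show n + 1 + 1 + 1 + 1 - 2 = n + 2 from rfl, show n + 1 + 1 + 1 + 1 - 3 = n + 1 from rfl]
      at key ⊢
    push_cast at key ⊢
    simp only [show n + 2 + 1 = n + 3 from rfl, show n + 1 + 1 + 1 + 1 = n + 4 from rfl,
      show n + 1 + 1 = n + 2 from rfl, show n + 4 + 1 = n + 5 from rfl] at key ⊢
    linarith

theorem bumpRec (n : ℕ) : ∀ y, BumpRec n y := by
  induction n with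
  | zero =>
    intro y
    unfold BumpRec
    have := bump_ode y
    simp at this ⊢
    linarith
  | succ n ih => exact bumpRec_step n ih

end Vale.Agent.P113
end

section

namespace Vale.Agent.P113

open scoped ContDiff Topology
open Filter

/-- Smooth functions on the line which vanish outside the open unit interval. -/
structure Bumpy (g : ℝ → ℝ) : Prop where
  smooth : ContDiff ℝ ∞ g
  left : ∀ s, s ≤ 0 → g s = 0
  right : ∀ s, 1 ≤ s → g s = 0

namespace Bumpy

variable {g : ℝ → ℝ}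

lemma continuous_iteratedDeriv (hg : Bumpy g) (k : ℕ) : Continuous (iteratedDeriv k g) :=
  hg.smooth.continuous_iteratedDeriv k (by exact_mod_cast le_top)

lemma iteratedDeriv_left (hg : Bumpy g) (k : ℕ) {s : ℝ} (hs : s ≤ 0) :
    iteratedDeriv k g s = 0 := by
  have hc : IsClosed {s : ℝ | iteratedDeriv k g s = 0} :=
    isClosed_eq (hg.continuous_iteratedDeriv k) continuous_const
  have hsub : Set.Iio (0 : ℝ) ⊆ {s : ℝ | iteratedDeriv k g s = 0} := by
    intro s hs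
    have h : g =ᶠ[𝓝 s] fun _ => (0 : ℝ) := by
      filter_upwards [Iio_mem_nhds hs] with y hy using hg.left y (le_of_lt hy)
    have := h.iteratedDeriv_eq k
    simp only [Set.mem_ofPred_eq, this]
    simp
  have := hc.closure_subset_iff.mpr hsub
  rw [closure_Iio] at this
  exact this hs

lemma iteratedDeriv_right (hg : Bumpy g) (k : ℕ) {s : ℝ} (hs : 1 ≤ s) :
    iteratedDeriv k g s = 0 := by
  have hc : IsClosed {s : ℝ | iteratedDeriv k g s = 0} :=
    isClosed_eq (hg.continuous_iteratedDeriv k) continuous_const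
  have hsub : Set.Ioi (1 : ℝ) ⊆ {s : ℝ | iteratedDeriv k g s = 0} := by
    intro s hs
    have h : g =ᶠ[𝓝 s] fun _ => (0 : ℝ) := by
      filter_upwards [Ioi_mem_nhds hs] with y hy using hg.right y (le_of_lt hy)
    have := h.iteratedDeriv_eq k
    simp only [Set.mem_ofPred_eq, this]
    simp
  have := hc.closure_subset_iff.mpr hsub
  rw [closure_Ioi] at this
  exact this hs

lemma exists_bound (hg : Bumpy g) (k : ℕ) : ∃ C : ℝ, 0 ≤ C ∧ ∀ s, |iteratedDeriv k g s| ≤ C := by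
  obtain ⟨C, hC⟩ := (isCompact_Icc (a := (0 : ℝ)) (b := 1)).exists_bound_of_continuousOn
    (hg.continuous_iteratedDeriv k).continuousOn
  refine ⟨max C 0, le_max_right _ _, fun s => ?_⟩
  by_cases h0 : s ≤ 0
  · simp [hg.iteratedDeriv_left k h0]
  by_cases h1 : 1 ≤ s
  · simp [hg.iteratedDeriv_right k h1]
  · exact le_max_of_le_left (hC s ⟨by linarith, by linarith⟩)

/-! ### Periodization -/

lemma fract_eventuallyEq (hg : Bumpy g) (x₀ : ℝ) :
    (fun x => g (Int.fract x)) =ᶠ[𝓝 x₀]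
      fun x => g (x - ⌊x₀⌋) + g (x - ⌊x₀⌋ + 1) := by
  have h1 : ((⌊x₀⌋ : ℤ) : ℝ) - 1 < x₀ := by have := Int.floor_le x₀; linarith
  have h2 : x₀ < (⌊x₀⌋ : ℤ) + 1 := Int.lt_floor_add_one x₀
  filter_upwards [Ioo_mem_nhds h1 h2] with x hx
  rcases le_or_gt ((⌊x₀⌋ : ℤ) : ℝ) x with h | h
  · have hf : ⌊x⌋ = ⌊x₀⌋ := by
      rw [Int.floor_eq_iff]; exact ⟨h, hx.2⟩
    rw [hg.right (x - ⌊x₀⌋ + 1) (by linarith), Int.fract, hf, add_zero]
  · have hf : ⌊x⌋ = ⌊x₀⌋ - 1 := by
      rw [Int.floor_eq_iff]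
      push_cast
      exact ⟨le_of_lt hx.1, by linarith⟩
    rw [hg.left (x - ⌊x₀⌋) (by linarith), Int.fract, hf, zero_add]
    push_cast
    congr 1
    ring

lemma contDiff_fract (hg : Bumpy g) : ContDiff ℝ ∞ (fun x => g (Int.fract x)) := by
  rw [contDiff_iff_contDiffAt]
  intro x₀
  refine ContDiffAt.congr_of_eventuallyEq ?_ (hg.fract_eventuallyEq x₀)
  have h1 : ContDiff ℝ ∞ (fun x : ℝ => g (x - ⌊x₀⌋)) :=
    hg.smooth.comp (contDiff_id.sub contDiff_const)
  have h2 : ContDiff ℝ ∞ (fun x : ℝ => g (x - ⌊x₀⌋ + 1)) :=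
    hg.smooth.comp ((contDiff_id.sub contDiff_const).add contDiff_const)
  exact (h1.add h2).contDiffAt

lemma iteratedDeriv_fract (hg : Bumpy g) (k : ℕ) (x : ℝ) :
    iteratedDeriv k (fun x => g (Int.fract x)) x = iteratedDeriv k g (Int.fract x) := by
  rw [(hg.fract_eventuallyEq x).iteratedDeriv_eq k]
  have h1 : ContDiff ℝ ∞ (fun y : ℝ => g (y - ⌊x⌋)) :=
    hg.smooth.comp (contDiff_id.sub contDiff_const)
  have h2 : ContDiff ℝ ∞ (fun y : ℝ => g (y - ⌊x⌋ + 1)) :=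
    hg.smooth.comp ((contDiff_id.sub contDiff_const).add contDiff_const)
  have hk : ((k : ℕ) : WithTop ℕ∞) ≤ ∞ := by exact_mod_cast le_top
  rw [iteratedDeriv_fun_add (h1.contDiffAt.of_le hk) (h2.contDiffAt.of_le hk)]
  have e1 : iteratedDeriv k (fun y : ℝ => g (y - ⌊x⌋)) x = iteratedDeriv k g (x - ⌊x⌋) := by
    rw [iteratedDeriv_comp_sub_const]
  have e2 : iteratedDeriv k (fun y : ℝ => g (y - ⌊x⌋ + 1)) x
      = iteratedDeriv k g (x - ⌊x⌋ + 1) := by
    have : (fun y : ℝ => g (y - ⌊x⌋ + 1)) = fun y : ℝ => g (y - ((⌊x⌋ : ℝ) - 1)) := by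
      funext y; congr 1; ring
    rw [this, iteratedDeriv_comp_sub_const]
    show iteratedDeriv k g (x - (↑⌊x⌋ - 1)) = iteratedDeriv k g (x - ↑⌊x⌋ + 1)
    congr 1; ring
  rw [e1, e2]
  have h3 : (1 : ℝ) ≤ x - ⌊x⌋ + 1 := by have := Int.floor_le x; linarith
  rw [hg.iteratedDeriv_right k h3, add_zero]
  rfl

end Bumpy

/-! ### Superposition of bumps accumulating at the origin -/

/-- The superposition `∑ (c n / n!) g(2^(n+1) x - 1)`. -/
noncomputable def phi (g : ℝ → ℝ) (c : ℕ → ℝ) (x : ℝ) : ℝ :=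
  ∑' n : ℕ, c n / (n.factorial : ℝ) * g (2 ^ (n + 1) * x - 1)

section

variable {g : ℝ → ℝ} {c : ℕ → ℝ}

lemma contDiff_term (hg : Bumpy g) (n : ℕ) :
    ContDiff ℝ ∞ (fun x : ℝ => c n / (n.factorial : ℝ) * g (2 ^ (n + 1) * x - 1)) :=
  contDiff_const.mul (hg.smooth.comp ((contDiff_const.mul contDiff_id).sub contDiff_const))

lemma iteratedDeriv_term (hg : Bumpy g) (n k : ℕ) (x : ℝ) :
    iteratedDeriv k (fun x : ℝ => c n / (n.factorial : ℝ) * g (2 ^ (n + 1) * x - 1)) x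
      = c n / (n.factorial : ℝ) * ((2 ^ (n + 1)) ^ k * iteratedDeriv k g (2 ^ (n + 1) * x - 1)) := by
  rw [iteratedDeriv_const_mul_field]
  congr 1
  have h := iteratedDeriv_comp_const_mul (n := k) (f := fun y : ℝ => g (y - 1))
    ((hg.smooth.comp (contDiff_id.sub contDiff_const)).of_le (by exact_mod_cast le_top))
    ((2 : ℝ) ^ (n + 1))
  have h' := congrFun h x
  rw [h', iteratedDeriv_comp_sub_const]

lemma summable_bound (C : ℝ) (k : ℕ) :
    Summable (fun n : ℕ => C * ((2 : ℝ) ^ (n + 1)) ^ k / (n.factorial : ℝ)) := by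
  have h := (Real.summable_pow_div_factorial ((2 : ℝ) ^ k)).mul_left (C * 2 ^ k)
  refine h.congr fun n => ?_
  rw [← pow_mul, ← pow_mul, ← mul_div_assoc]
  congr 1
  rw [mul_assoc, ← pow_add]
  congr 2
  ring

lemma norm_iteratedFDeriv_term_le (hg : Bumpy g) (hc : ∀ n, |c n| ≤ 1) (k : ℕ) {C : ℝ}
    (hC : ∀ s, |iteratedDeriv k g s| ≤ C) (n : ℕ) (x : ℝ) :
    ‖iteratedFDeriv ℝ k (fun x : ℝ => c n / (n.factorial : ℝ) * g (2 ^ (n + 1) * x - 1)) x‖
      ≤ C * ((2 : ℝ) ^ (n + 1)) ^ k / (n.factorial : ℝ) := by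
  rw [norm_iteratedFDeriv_eq_norm_iteratedDeriv, iteratedDeriv_term hg, Real.norm_eq_abs,
    abs_mul, abs_div, abs_mul, Nat.abs_cast]
  have hC0 : 0 ≤ C := (abs_nonneg _).trans (hC 0)
  have hf : (0 : ℝ) < (n.factorial : ℝ) := by exact_mod_cast n.factorial_pos
  have h2 : |((2 : ℝ) ^ (n + 1)) ^ k| = ((2 : ℝ) ^ (n + 1)) ^ k := abs_of_nonneg (by positivity)
  rw [h2]
  calc |c n| / (n.factorial : ℝ) * (((2 : ℝ) ^ (n + 1)) ^ k * |iteratedDeriv k g (2 ^ (n + 1) * x - 1)|)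
      ≤ 1 / (n.factorial : ℝ) * (((2 : ℝ) ^ (n + 1)) ^ k * C) := by
        gcongr
        · exact hc n
        · exact hC _
    _ = C * ((2 : ℝ) ^ (n + 1)) ^ k / (n.factorial : ℝ) := by ring

lemma contDiff_phi (hg : Bumpy g) (hc : ∀ n, |c n| ≤ 1) : ContDiff ℝ ∞ (phi g c) := by
  choose C hC0 hC using hg.exists_bound
  have h := contDiff_tsum (𝕜 := ℝ) (N := (⊤ : ℕ∞))
    (f := fun (n : ℕ) (x : ℝ) => c n / (n.factorial : ℝ) * g (2 ^ (n + 1) * x - 1))
    (v := fun (k n : ℕ) => C k * ((2 : ℝ) ^ (n + 1)) ^ k / (n.factorial : ℝ))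
    (fun n => contDiff_term hg n) (fun k _ => summable_bound (C k) k)
    (fun k n x _ => norm_iteratedFDeriv_term_le hg hc k (hC k) n x)
  exact h

lemma iteratedDeriv_phi (hg : Bumpy g) (hc : ∀ n, |c n| ≤ 1) (k : ℕ) (x : ℝ) :
    iteratedDeriv k (phi g c) x =
      ∑' n : ℕ, c n / (n.factorial : ℝ) *
        ((2 ^ (n + 1)) ^ k * iteratedDeriv k g (2 ^ (n + 1) * x - 1)) := by
  choose C hC0 hC using hg.exists_bound
  have h := iteratedFDeriv_tsum_apply (𝕜 := ℝ) (N := (⊤ : ℕ∞))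
    (f := fun (n : ℕ) (x : ℝ) => c n / (n.factorial : ℝ) * g (2 ^ (n + 1) * x - 1))
    (v := fun (k n : ℕ) => C k * ((2 : ℝ) ^ (n + 1)) ^ k / (n.factorial : ℝ))
    (fun n => contDiff_term hg n) (fun k _ => summable_bound (C k) k)
    (fun k n x _ => norm_iteratedFDeriv_term_le hg hc k (hC k) n x) (k := k) le_top x
  have hs : Summable (fun n : ℕ => iteratedFDeriv ℝ k
      (fun x : ℝ => c n / (n.factorial : ℝ) * g (2 ^ (n + 1) * x - 1)) x) :=
    Summable.of_norm_bounded (summable_bound (C k) k)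
      (fun n => norm_iteratedFDeriv_term_le hg hc k (hC k) n x)
  rw [iteratedDeriv_eq_iteratedFDeriv]
  show (iteratedFDeriv ℝ k (fun y => ∑' n : ℕ, c n / (n.factorial : ℝ) *
    g (2 ^ (n + 1) * y - 1)) x) (fun _ => 1) = _
  rw [h, ContinuousMultilinearMap.tsum_eval hs]
  refine tsum_congr fun n => ?_
  rw [← iteratedDeriv_eq_iteratedFDeriv, iteratedDeriv_term hg]

lemma bumpy_phi (hg : Bumpy g) (hc : ∀ n, |c n| ≤ 1) : Bumpy (phi g c) where
  smooth := contDiff_phi hg hc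
  left s hs := by
    unfold phi
    have : ∀ n : ℕ, c n / (n.factorial : ℝ) * g (2 ^ (n + 1) * s - 1) = 0 := by
      intro n
      have : (2 : ℝ) ^ (n + 1) * s ≤ 0 := mul_nonpos_of_nonneg_of_nonpos (by positivity) hs
      rw [hg.left _ (by linarith), mul_zero]
    simp [this]
  right s hs := by
    unfold phi
    have : ∀ n : ℕ, c n / (n.factorial : ℝ) * g (2 ^ (n + 1) * s - 1) = 0 := by
      intro n
      have h2 : (2 : ℝ) ≤ 2 ^ (n + 1) := by
        calc (2 : ℝ) = 2 ^ 1 := by norm_num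
          _ ≤ 2 ^ (n + 1) := pow_le_pow_right₀ (by norm_num) (by omega)
      have : (2 : ℝ) * 1 ≤ 2 ^ (n + 1) * s := mul_le_mul h2 hs (by norm_num) (by positivity)
      rw [hg.right _ (by linarith), mul_zero]
    simp [this]

/-- At a point of the dyadic shell number `n` only the `n`-th bump contributes. -/
lemma iteratedDeriv_phi_of_shell (hg : Bumpy g) (hc : ∀ n, |c n| ≤ 1) (k n : ℕ) {x : ℝ}
    (h1 : 1 ≤ 2 ^ (n + 1) * x) (h2 : 2 ^ n * x ≤ 1) :
    iteratedDeriv k (phi g c) x =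
      c n / (n.factorial : ℝ) * ((2 ^ (n + 1)) ^ k * iteratedDeriv k g (2 ^ (n + 1) * x - 1)) := by
  rw [iteratedDeriv_phi hg hc, tsum_eq_single n]
  intro m hm
  have hx : 0 < x := by
    by_contra h
    push Not at h
    have : (2 : ℝ) ^ (n + 1) * x ≤ 0 := mul_nonpos_of_nonneg_of_nonpos (by positivity) h
    linarith
  rcases lt_or_gt_of_ne hm with h | h
  · have : (2 : ℝ) ^ (m + 1) * x ≤ 2 ^ n * x :=
      mul_le_mul_of_nonneg_right (pow_le_pow_right₀ (by norm_num) (by omega)) hx.le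
    rw [hg.iteratedDeriv_left k (by linarith)]
    ring
  · have h3 : (2 : ℝ) ^ (n + 2) * x ≤ 2 ^ (m + 1) * x :=
      mul_le_mul_of_nonneg_right (pow_le_pow_right₀ (by norm_num) (by omega)) hx.le
    have h4 : (2 : ℝ) ^ (n + 2) * x = 2 * (2 ^ (n + 1) * x) := by ring
    rw [hg.iteratedDeriv_right k (by linarith)]
    ring

lemma phi_of_shell (hg : Bumpy g) (hc : ∀ n, |c n| ≤ 1) (n : ℕ) {x : ℝ}
    (h1 : 1 ≤ 2 ^ (n + 1) * x) (h2 : 2 ^ n * x ≤ 1) :
    phi g c x = c n / (n.factorial : ℝ) * g (2 ^ (n + 1) * x - 1) := by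
  have := iteratedDeriv_phi_of_shell hg hc 0 n h1 h2
  simpa using this

end

end Vale.Agent.P113
end
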