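import Vale.Agent.P113.Defs
import Vale.Agent.P113.Bdl.B1

section

namespace Vale.Agent.P113

open scoped ContDiff Topology
open Set Filter

/-- The function on the circle with values `g` on `[0,1)`. -/
noncomputable def circ (g : ℝ → ℝ) (θ : UnitAddCircle) : ℝ :=
  g (AddCircle.equivIco (1:ℝ) 0 θ : ℝ)

theorem periodic_fract {g : ℝ → ℝ} (hg : Function.Periodic g 1) (x : ℝ) :
    g (Int.fract x) = g x := by
  have h := hg.sub_int_mul_eq (x := x) ⌊x⌋
  rw [mul_one] at h
  exact h

theorem circ_coe {g : ℝ → ℝ} (hg : Function.Periodic g 1) (x : ℝ) :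
    circ g (x : UnitAddCircle) = g x := by
  have := AddCircle.coe_equivIco_mk_apply (1:ℝ) x
  rw [div_one, mul_one] at this
  unfold circ
  rw [show ((x : UnitAddCircle)) = QuotientAddGroup.mk x from rfl, this]
  exact periodic_fract hg x

/-- The velocity field. -/
noncomputable def vel (r : ℝ) (ψ : ℝ → ℝ) (t : ℝ) (θ : T3) : E3 :=
  ![bump t * r, pulse t * circ ψ (θ 0), 0]

/-- The force. -/
noncomputable def frc (ν r : ℝ) (ψ : ℝ → ℝ) (t : ℝ) (θ : T3) : E3 :=
  ![deriv bump t * r,
    deriv pulse t * circ ψ (θ 0) - ν * (pulse t * circ (deriv (deriv ψ)) (θ 0)), 0]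

theorem deriv_periodic {g : ℝ → ℝ} (hg : Function.Periodic g 1) :
    Function.Periodic (deriv g) 1 := by
  intro x
  have : deriv (fun y => g (y + 1)) x = deriv g (x + 1) := deriv_comp_add_const g 1 x
  rw [← this]
  congr 1
  funext y
  exact hg y

variable {ν r : ℝ} {ψ : ℝ → ℝ}

theorem vel_proj (hψ : Function.Periodic ψ 1) (t : ℝ) (x : E3) :
    vel r ψ t (proj x) = ![bump t * r, pulse t * ψ (x 0), 0] := by
  unfold vel proj
  rw [circ_coe hψ]

theorem frc_proj (hψ : Function.Periodic ψ 1) (t : ℝ) (x : E3) :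
    frc ν r ψ t (proj x) = ![deriv bump t * r,
      deriv pulse t * ψ (x 0) - ν * (pulse t * deriv (deriv ψ) (x 0)), 0] := by
  unfold frc proj
  rw [circ_coe hψ, circ_coe (deriv_periodic (deriv_periodic hψ))]

theorem contDiff_vec3 {X : Type*} [NormedAddCommGroup X] [NormedSpace ℝ X] {f g h : X → ℝ}
    {n : WithTop ℕ∞} (hf : ContDiff ℝ n f) (hg : ContDiff ℝ n g) (hh : ContDiff ℝ n h) :
    ContDiff ℝ n (fun z => (![f z, g z, h z] : E3)) := by
  rw [contDiff_pi]
  intro i
  fin_cases i
  · exact hf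
  · exact hg
  · exact hh

theorem deriv_smooth {g : ℝ → ℝ} (hg : ContDiff ℝ ∞ g) : ContDiff ℝ ∞ (deriv g) :=
  (contDiff_infty_iff_deriv.1 hg).2

theorem contDiff_x0 : ContDiff ℝ ∞ (fun z : ℝ × E3 => z.2 0) :=
  (contDiff_apply ℝ ℝ (0 : Fin 3)).comp contDiff_snd

theorem vel_contDiff (hψ : Function.Periodic ψ 1) (hs : ContDiff ℝ ∞ ψ) :
    ContDiff ℝ ∞ (fun z : ℝ × E3 => vel r ψ z.1 (proj z.2)) := by
  simp only [vel_proj hψ]
  exact contDiff_vec3 ((bump_contDiff.comp contDiff_fst).mul contDiff_const)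
    ((pulse_contDiff.comp contDiff_fst).mul (hs.comp contDiff_x0)) contDiff_const

theorem frc_contDiff (hψ : Function.Periodic ψ 1) (hs : ContDiff ℝ ∞ ψ) :
    ContDiff ℝ ∞ (fun z : ℝ × E3 => frc ν r ψ z.1 (proj z.2)) := by
  simp only [frc_proj hψ]
  refine contDiff_vec3 (((deriv_smooth bump_contDiff).comp contDiff_fst).mul contDiff_const)
    ?_ contDiff_const
  refine (((deriv_smooth pulse_contDiff).comp contDiff_fst).mul (hs.comp contDiff_x0)).sub ?_
  refine contDiff_const.mul ((pulse_contDiff.comp contDiff_fst).mul ?_)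
  exact (deriv_smooth (deriv_smooth hs)).comp contDiff_x0


theorem pd_x0 {g : ℝ → ℝ} (hg : Differentiable ℝ g) (j : Fin 3) (x : E3) :
    pd j (fun y => g (y 0)) x = if j = 0 then deriv g (x 0) else 0 := by
  have h1 : HasFDerivAt (fun y : E3 => y 0) (ContinuousLinearMap.proj (R := ℝ) (0 : Fin 3)) x :=
    hasFDerivAt_apply 0 x
  have h2 : HasFDerivAt (fun y : E3 => g (y 0)) _ x :=
    (hg (x 0)).hasDerivAt.comp_hasFDerivAt x h1
  unfold pd
  rw [h2.fderiv]
  fin_cases j <;> simp

theorem pd_const (c : ℝ) (j : Fin 3) (x : E3) : pd j (fun _ => c) x = 0 := by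
  unfold pd
  simp

theorem pd_const_mul_x0 {g : ℝ → ℝ} (hg : Differentiable ℝ g) (c : ℝ) (j : Fin 3) (x : E3) :
    pd j (fun y => c * g (y 0)) x = if j = 0 then c * deriv g (x 0) else 0 := by
  have h := pd_x0 (g := fun s => c * g s) (hg.const_mul c) j x
  rw [h, deriv_const_mul c (hg (x 0))]

theorem hasDerivAt_vec3 {f g h : ℝ → ℝ} {f' g' h' : ℝ} {t : ℝ} (hf : HasDerivAt f f' t)
    (hg : HasDerivAt g g' t) (hh : HasDerivAt h h' t) :
    HasDerivAt (fun s => (![f s, g s, h s] : E3)) ![f', g', h'] t := by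
  rw [hasDerivAt_pi]
  intro i
  fin_cases i
  · exact hf
  · exact hg
  · exact hh

theorem vel_hasDerivAt (hψ : Function.Periodic ψ 1) (x : E3) (t : ℝ) :
    HasDerivAt (fun s => vel r ψ s (proj x))
      ![deriv bump t * r, deriv pulse t * ψ (x 0), 0] t := by
  simp only [vel_proj hψ]
  refine hasDerivAt_vec3 ?_ ?_ (hasDerivAt_const _ _)
  · exact ((bump_contDiff (n := ⊤)).differentiable (by simp) t).hasDerivAt.mul_const r
  · exact (pulse_contDiff.differentiable (by simp) t).hasDerivAt.mul_const _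

theorem vel_isSmooth (hψ : Function.Periodic ψ 1) (hs : ContDiff ℝ ∞ ψ) (i : Fin 3) :
    IsSmooth (fun t x => vel r ψ t (proj x) i) :=
  contDiff_pi.1 (vel_contDiff (r := r) hψ hs) i

theorem frc_isSmooth (hψ : Function.Periodic ψ 1) (hs : ContDiff ℝ ∞ ψ) (i : Fin 3) :
    IsSmooth (fun t x => frc ν r ψ t (proj x) i) :=
  contDiff_pi.1 (frc_contDiff (ν := ν) (r := r) hψ hs) i

/-- Partial derivatives of smooth functions of time and space are smooth. -/
theorem IsSmooth.pd {g : ℝ → E3 → ℝ} (hg : IsSmooth g) (j : Fin 3) :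
    IsSmooth (fun t => Vale.Agent.P113.pd j (g t)) := by
  have hD : ContDiff ℝ ∞ (fun z : ℝ × E3 => fderiv ℝ (g z.1) z.2) := by
    refine ContDiff.fderiv (f := fun (z : ℝ × E3) (y : E3) => g z.1 y)
      (m := ∞) (n := ∞) ?_ contDiff_snd (by simp)
    exact hg.comp ((contDiff_fst.comp contDiff_fst).prodMk contDiff_snd)
  exact hD.clm_apply contDiff_const

theorem IsSmooth.isCont {g : ℝ → E3 → ℝ} (hg : IsSmooth g) (T : ℝ) : IsCont T g :=
  (ContDiff.continuous hg).continuousOn

theorem IsSmooth.slice {g : ℝ → E3 → ℝ} (hg : IsSmooth g) (t : ℝ) (n : ℕ∞) : IsC n (g t) :=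
  (hg.comp (contDiff_const.prodMk contDiff_id)).of_le (by exact_mod_cast le_top)

theorem vel_classical (hψ : Function.Periodic ψ 1) (hs : ContDiff ℝ ∞ ψ) {T : ℝ} (hT : 0 < T) :
    IsClassicalSolution ν T (frc ν r ψ) (vel r ψ) (fun _ _ => 0) := by
  have hV : ∀ i, IsSmooth (fun t x => vel r ψ t (proj x) i) := vel_isSmooth hψ hs
  have hdψ : Differentiable ℝ ψ := hs.differentiable (by simp)
  have hddψ : Differentiable ℝ (deriv ψ) := (deriv_smooth hs).differentiable (by simp)
  have hud : UniqueDiffOn ℝ (Icc (0:ℝ) T) := uniqueDiffOn_Icc hT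
  have hcomp : ∀ (x : E3) (t : ℝ) (i : Fin 3), HasDerivAt (fun s => vel r ψ s (proj x) i)
      ((![deriv bump t * r, deriv pulse t * ψ (x 0), 0] : E3) i) t := fun x t i =>
    (hasDerivAt_pi.1 (vel_hasDerivAt (r := r) hψ x t)) i
  have hdw : ∀ (x : E3), ∀ t ∈ Icc (0:ℝ) T, ∀ i : Fin 3,
      derivWithin (fun s => vel r ψ s (proj x) i) (Icc 0 T) t =
        (![deriv bump t * r, deriv pulse t * ψ (x 0), 0] : E3) i := fun x t ht i =>
    (hcomp x t i).hasDerivWithinAt.derivWithin (hud t ht)
  have hzero : IsSmooth (fun (_ : ℝ) (_ : E3) => (0:ℝ)) := contDiff_const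
  refine ⟨?_, ?_, ?_, ?_, ?_, ?_, ?_, ?_, ?_, ?_, ?_, ?_, ?_⟩
  · intro t _ i
    exact (hV i).slice t 2
  · intro t _
    exact contDiff_const
  · intro t _ x i
    obtain ⟨y, rfl⟩ : ∃ y, proj y = x := by
      have h : ∀ i, ∃ r : ℝ, (r : UnitAddCircle) = x i := fun i =>
        QuotientAddGroup.mk_surjective (x i)
      choose r hr using h
      exact ⟨r, funext hr⟩
    exact (hcomp y t i).differentiableAt.differentiableWithinAt
  · exact fun i => (hV i).isCont T
  · intro i
    have hc : Continuous (fun z : ℝ × E3 =>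
        (![deriv bump z.1 * r, deriv pulse z.1 * ψ (z.2 0), 0] : E3)) := by
      refine (contDiff_vec3 (n := ∞) ?_ ?_ contDiff_const).continuous
      · exact ((deriv_smooth bump_contDiff).comp contDiff_fst).mul contDiff_const
      · exact ((deriv_smooth pulse_contDiff).comp contDiff_fst).mul (hs.comp contDiff_x0)
    have hc' : Continuous (fun z : ℝ × E3 =>
        (![deriv bump z.1 * r, deriv pulse z.1 * ψ (z.2 0), 0] : E3) i) :=
      (continuous_apply i).comp hc
    refine hc'.continuousOn.congr ?_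
    rintro ⟨t, x⟩ ⟨ht, _⟩
    exact hdw x t ht i
  · exact fun i j => ((hV i).pd j).isCont T
  · exact fun i j k => (((hV i).pd j).pd k).isCont T
  · exact hzero.isCont T
  · exact fun i => (hzero.pd i).isCont T
  · intro t ht x i
    rw [hdw x t ht i]
    simp only [vel_proj hψ, frc_proj hψ, Fin.sum_univ_three]
    have hmul := bump_mul_pulse t
    have epd : ∀ (j : Fin 3), Vale.Agent.P113.pd j (fun y : E3 => pulse t * ψ (y 0)) =
        fun y => (if j = 0 then pulse t * deriv ψ (y 0) else 0) := fun j => by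
      funext y; exact pd_const_mul_x0 hdψ _ j y
    have epd0 : Vale.Agent.P113.pd 0 (fun y : E3 => pulse t * ψ (y 0)) =
        fun y => pulse t * deriv ψ (y 0) := by rw [epd]; simp
    have epd1 : Vale.Agent.P113.pd 1 (fun y : E3 => pulse t * ψ (y 0)) = fun y => 0 := by
      rw [epd]; simp
    have epd2 : Vale.Agent.P113.pd 2 (fun y : E3 => pulse t * ψ (y 0)) = fun y => 0 := by
      rw [epd]; simp
    have ec : ∀ (j : Fin 3) (c : ℝ), Vale.Agent.P113.pd j (fun y : E3 => c) = fun _ => 0 :=
      fun j c => by funext y; exact pd_const c j y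
    fin_cases i
    · simp [ec]
    · simp [ec, epd0, epd1, epd2, pd_const_mul_x0 hddψ]
      rcases mul_eq_zero.1 hmul with h | h <;> simp [h]
    · simp [ec]
  · intro t _ x
    simp only [vel_proj hψ, Fin.sum_univ_three]
    simp [pd_const, pd_const_mul_x0 hdψ]
  · intro x i
    have h0 : pulse 0 = 0 := pulse_of_lt_one le_rfl one_pos
    have h1 : bump 0 = 0 := bump_of_nonpos le_rfl
    fin_cases i <;> simp [vel, h0, h1]
  · intro t _
    simp

end Vale.Agent.P113
end

section

namespace Vale.Agent.P113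

open scoped ContDiff Topology
open Set Filter

/-- The displacement factor of the transient. -/
noncomputable def dispI : ℝ := ∫ s in (0:ℝ)..1, bump s

noncomputable def dispG (t : ℝ) : ℝ := ∫ s in (0:ℝ)..t, bump s

noncomputable def dispH (t : ℝ) : ℝ := ∫ s in (0:ℝ)..t, pulse s

theorem bump_cont : Continuous bump := (bump_contDiff (n := ⊤)).continuous

theorem pulse_cont : Continuous pulse := pulse_contDiff.continuous

theorem bper_cont : Continuous bper := bper_contDiff.continuous

theorem dispG_hasDerivAt (t : ℝ) : HasDerivAt dispG (bump t) t :=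
  intervalIntegral.integral_hasDerivAt_right (bump_cont.intervalIntegrable _ _)
    (bump_cont.stronglyMeasurableAtFilter _ _) bump_cont.continuousAt

theorem dispH_hasDerivAt (t : ℝ) : HasDerivAt dispH (pulse t) t :=
  intervalIntegral.integral_hasDerivAt_right (pulse_cont.intervalIntegrable _ _)
    (pulse_cont.stronglyMeasurableAtFilter _ _) pulse_cont.continuousAt

theorem dispG_zero : dispG 0 = 0 := by simp [dispG]

theorem dispH_zero : dispH 0 = 0 := by simp [dispH]

theorem dispI_pos : 0 < dispI := by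
  unfold dispI
  exact intervalIntegral.intervalIntegral_pos_of_pos_on (bump_cont.intervalIntegrable _ _)
    (fun x hx => bump_pos hx.1 hx.2) one_pos

theorem dispI_lt_one : dispI < 1 := by
  have h1 : dispI ≤ ∫ s in (0:ℝ)..1, Real.exp (-1) := by
    unfold dispI
    refine intervalIntegral.integral_mono_on zero_le_one (bump_cont.intervalIntegrable _ _)
      (by simp) ?_
    intro x hx
    rcases le_or_gt x 0 with h | h
    · rw [bump_of_nonpos h]; exact (Real.exp_pos _).le
    · rcases le_or_gt 1 x with h' | h'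
      · rw [bump_of_one_le h']; exact (Real.exp_pos _).le
      · rw [bump_eq h h']
        apply Real.exp_le_exp.2
        have e1 : 1 ≤ x⁻¹ := (one_le_inv₀ h).2 h'.le
        have e2 : 0 < (1 - x)⁻¹ := inv_pos.2 (by linarith)
        linarith
  have h2 : (∫ s in (0:ℝ)..1, Real.exp (-1)) = Real.exp (-1) := by simp
  rw [h2] at h1
  exact h1.trans_lt (Real.exp_lt_one_iff.2 (by norm_num))

theorem dispG_of_one_le {t : ℝ} (h : 1 ≤ t) : dispG t = dispI := by
  unfold dispG dispI
  rw [← intervalIntegral.integral_add_adjacent_intervals (bump_cont.intervalIntegrable 0 1)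
    (bump_cont.intervalIntegrable 1 t)]
  have : (∫ s in (1:ℝ)..t, bump s) = 0 := by
    rw [intervalIntegral.integral_congr (g := fun _ => 0)]
    · simp
    · intro s hs
      rw [uIcc_of_le h] at hs
      exact bump_of_one_le hs.1
  rw [this, add_zero]

theorem dispH_tendsto : Tendsto dispH atTop atTop := by
  have hper : Function.Periodic bper 1 := per_periodic bump
  have h1 : (∫ s in (0:ℝ)..1, bper s) = dispI := by
    unfold dispI
    refine intervalIntegral.integral_congr_ae ?_
    rw [uIoc_of_le zero_le_one]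
    have : ∀ᵐ x : ℝ, x ≠ 1 := by
      simp [MeasureTheory.ae_iff]
    filter_upwards [this] with x hx hx'
    have : Int.fract x = x := Int.fract_eq_self.2 ⟨hx'.1.le, lt_of_le_of_ne hx'.2 hx⟩
    simp [bper, per, this]
  have h2 := hper.tendsto_atTop_intervalIntegral_of_pos (by rw [h1]; exact dispI_pos) one_pos
  have h3 : ∀ t, dispH t = (∫ s in (0:ℝ)..t, bper s) - dispG t := by
    intro t
    unfold dispH dispG pulse
    rw [intervalIntegral.integral_sub (bper_cont.intervalIntegrable _ _)
      (bump_cont.intervalIntegrable _ _)]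
  have h4 : Tendsto (fun t => (∫ s in (0:ℝ)..t, bper s) + (- dispI)) atTop atTop :=
    tendsto_atTop_add_const_right _ _ h2
  refine h4.congr' ?_
  filter_upwards [eventually_ge_atTop (1:ℝ)] with t ht
  rw [h3, dispG_of_one_le ht]
  ring

/-- The explicit trajectory. -/
noncomputable def traj (r : ℝ) (ψ : ℝ → ℝ) (t : ℝ) : E3 :=
  ![r * dispG t, dispH t * ψ (r * dispI), 0]

theorem pulse_mul_eq {r : ℝ} {ψ : ℝ → ℝ} {t : ℝ} (ht : 0 ≤ t) :
    pulse t * ψ (r * dispG t) = pulse t * ψ (r * dispI) := by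
  rcases lt_or_ge t 1 with h | h
  · simp [pulse_of_lt_one ht h]
  · rw [dispG_of_one_le h]

theorem traj_isTrajectory (r : ℝ) {ψ : ℝ → ℝ} (hψ : Function.Periodic ψ 1) :
    IsTrajectory (vel r ψ) 0 (traj r ψ) := by
  constructor
  · funext i
    fin_cases i <;> simp [proj, traj, dispG_zero, dispH_zero]
  · intro t ht i
    rw [vel_proj hψ]
    have : (![bump t * r, pulse t * ψ (traj r ψ t 0), 0] : E3) =
        ![r * bump t, pulse t * ψ (r * dispI), 0] := by
      have e : traj r ψ t 0 = r * dispG t := rfl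
      rw [e, pulse_mul_eq ht, mul_comm]
    rw [this]
    refine HasDerivAt.hasDerivWithinAt ?_
    have h3 : HasDerivAt (traj r ψ) ![r * bump t, pulse t * ψ (r * dispI), 0] t := by
      unfold traj
      refine hasDerivAt_vec3 ?_ ?_ (hasDerivAt_const _ _)
      · exact (dispG_hasDerivAt t).const_mul r
      · exact (dispH_hasDerivAt t).mul_const _
    exact (hasDerivAt_pi.1 h3) i

/-- The detecting open set. -/
def openSet : Set T3 := {θ | θ 1 ∈ (fun y : ℝ => (y : UnitAddCircle)) '' Ioo (1/4 : ℝ) (3/4)}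

theorem openSet_isOpen : IsOpen openSet := by
  have h : IsOpen ((fun y : ℝ => (y : UnitAddCircle)) '' Ioo (1/4 : ℝ) (3/4)) :=
    QuotientAddGroup.isOpenMap_coe _ isOpen_Ioo
  exact h.preimage (continuous_apply 1)

theorem eqOn_of_deriv {g k : ℝ → ℝ} {g' : ℝ → ℝ}
    (hg : ∀ t, 0 ≤ t → HasDerivWithinAt g (g' t) (Ici 0) t)
    (hk : ∀ t, 0 ≤ t → HasDerivWithinAt k (g' t) (Ici 0) t) {t : ℝ} (ht : 0 ≤ t) :
    g t - k t = g 0 - k 0 := by
  have hd : ∀ s, 0 ≤ s → HasDerivWithinAt (fun s => g s - k s) 0 (Ici 0) s := by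
    intro s hs
    have := (hg s hs).sub (hk s hs)
    rwa [sub_self] at this
  refine constant_of_has_deriv_right_zero (f := fun s => g s - k s) (a := 0) (b := t) ?_ ?_ t
    ⟨ht, le_rfl⟩
  · intro s hs
    exact ((hd s hs.1).continuousWithinAt).mono Icc_subset_Ici_self
  · intro s hs
    exact (hd s hs.1).mono (Ici_subset_Ici.2 hs.1)

theorem coe_int_circle (n : ℤ) : ((n : ℝ) : UnitAddCircle) = 0 := by
  rw [AddCircle.coe_eq_zero_iff]
  exact ⟨n, by simp⟩

theorem traj_enters_iff {r : ℝ} {ψ : ℝ → ℝ} (hψ : Function.Periodic ψ 1)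
    (hnn : ∀ s, 0 ≤ ψ s) {X : ℝ → E3} (hX : IsTrajectory (vel r ψ) 0 X) :
    (∃ t : ℝ, 0 ≤ t ∧ proj (X t) ∈ openSet) ↔ 0 < ψ (r * dispI) := by
  obtain ⟨hX0, hX⟩ := hX
  have hcomp : ∀ (i : Fin 3) (t : ℝ), 0 ≤ t →
      HasDerivWithinAt (fun s => X s i) (vel r ψ t (proj (X t)) i) (Ici 0) t :=
    fun i t ht => hX t ht i
  -- initial integers
  have hint : ∀ i : Fin 3, ∃ n : ℤ, X 0 i = n := by
    intro i
    have h1 := congrFun hX0 i
    have h2 : ((X 0 i : ℝ) : UnitAddCircle) = 0 := h1
    rw [AddCircle.coe_eq_zero_iff] at h2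
    obtain ⟨n, hn⟩ := h2
    exact ⟨n, by simpa using hn.symm⟩
  obtain ⟨n0, hn0⟩ := hint 0
  obtain ⟨n1, hn1⟩ := hint 1
  have h0 : ∀ t, 0 ≤ t → X t 0 = n0 + r * dispG t := by
    intro t ht
    have h := eqOn_of_deriv (g := fun s => X s 0) (k := fun s => r * dispG s)
      (g' := fun s => r * bump s) ?_ ?_ ht
    · simp only [dispG_zero, mul_zero, sub_zero, hn0] at h
      linarith
    · intro s hs
      have := hcomp 0 s hs
      rw [vel_proj hψ] at this
      simpa [mul_comm] using this
    · intro s hs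
      exact ((dispG_hasDerivAt s).const_mul r).hasDerivWithinAt
  have h1 : ∀ t, 0 ≤ t → X t 1 = n1 + dispH t * ψ (r * dispI) := by
    intro t ht
    have h := eqOn_of_deriv (g := fun s => X s 1) (k := fun s => dispH s * ψ (r * dispI))
      (g' := fun s => pulse s * ψ (r * dispI)) ?_ ?_ ht
    · simp only [dispH_zero, zero_mul, sub_zero, hn1] at h
      linarith
    · intro s hs
      have := hcomp 1 s hs
      rw [vel_proj hψ] at this
      have e2 : ψ (X s 0) = ψ (r * dispG s) := by
        rw [h0 s hs, add_comm]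
        have := hψ.int_mul n0 (r * dispG s)
        simpa using this
      simp only [Matrix.cons_val_one, Matrix.cons_val_zero, e2] at this
      rwa [pulse_mul_eq hs] at this
    · intro s hs
      exact ((dispH_hasDerivAt s).mul_const _).hasDerivWithinAt
  constructor
  · rintro ⟨t, ht, y, hy, hyt⟩
    by_contra hcon
    have hz : ψ (r * dispI) = 0 := le_antisymm (not_lt.1 hcon) (hnn _)
    have h1t := h1 t ht
    rw [hz, mul_zero, add_zero] at h1t
    have hyt' : (y : UnitAddCircle) = 0 := by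
      have : (y : UnitAddCircle) = proj (X t) 1 := hyt
      rw [this]
      unfold proj
      rw [h1t]
      exact coe_int_circle n1
    rw [AddCircle.coe_eq_zero_iff] at hyt'
    obtain ⟨m, hm⟩ := hyt'
    simp only [zsmul_eq_mul, mul_one] at hm
    rw [← hm] at hy
    have e1 : (0:ℝ) < m := lt_trans (by norm_num) hy.1
    have e2 : (m:ℝ) < 1 := lt_trans hy.2 (by norm_num)
    have e1' : (0:ℤ) < m := by exact_mod_cast e1
    have e2' : m < (1:ℤ) := by exact_mod_cast e2
    omega
  · intro hpos
    have hcont : Continuous dispH :=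
      continuous_iff_continuousAt.2 fun t => (dispH_hasDerivAt t).continuousAt
    obtain ⟨t1, ht1, ht1'⟩ : ∃ t1 : ℝ, 0 ≤ t1 ∧ 1 / (2 * ψ (r * dispI)) ≤ dispH t1 := by
      have := (dispH_tendsto.eventually_ge_atTop (1 / (2 * ψ (r * dispI)))).and
        (eventually_ge_atTop (0:ℝ))
      obtain ⟨t1, h⟩ := this.exists
      exact ⟨t1, h.2, h.1⟩
    have hmem : 1 / (2 * ψ (r * dispI)) ∈ Icc (dispH 0) (dispH t1) := by
      rw [dispH_zero]
      exact ⟨by positivity, ht1'⟩
    obtain ⟨t, ht, hteq⟩ := intermediate_value_Icc ht1 hcont.continuousOn hmem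
    refine ⟨t, ht.1, ?_⟩
    refine ⟨1/2, ⟨by norm_num, by norm_num⟩, ?_⟩
    unfold proj
    simp only []
    rw [h1 t ht.1, hteq]
    have e : 1 / (2 * ψ (r * dispI)) * ψ (r * dispI) = 1/2 := by
      field_simp
    rw [e, AddCircle.coe_add, coe_int_circle, zero_add]

end Vale.Agent.P113
end

section

/-!
Computable families of real numbers, through rational approximations with error bounds.
-/

namespace Vale.Agent.P113

open Encodable Nat.Partrec

/-! ### Primitive recursive integer arithmetic -/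

section IntPrim

theorem encode_int (z : ℤ) : encode z = Equiv.intEquivNat z := rfl

theorem encode_int_natCast (n : ℕ) : encode ((n : ℕ) : ℤ) = 2 * n := rfl

theorem encode_int_negSucc (n : ℕ) : encode (Int.negSucc n) = 2 * n + 1 := rfl

theorem prim_natCast : Primrec (fun n : ℕ => (n : ℤ)) := by
  refine Primrec.encode_iff.1 ?_
  exact (Primrec.nat_mul.comp (Primrec.const 2) Primrec.id)

theorem prim_negSucc : Primrec (fun n : ℕ => Int.negSucc n) := by
  refine Primrec.encode_iff.1 ?_
  exact Primrec.succ.comp (Primrec.nat_mul.comp (Primrec.const 2) Primrec.id)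

theorem prim_subNat : Primrec₂ (fun a b : ℕ => (a : ℤ) - (b : ℤ)) := by
  have h : Primrec (fun p : ℕ × ℕ => if p.2 ≤ p.1 then ((p.1 - p.2 : ℕ) : ℤ)
      else Int.negSucc (p.2 - p.1 - 1)) := by
    refine Primrec.ite ?_ ?_ ?_
    · exact Primrec.nat_le.comp Primrec.snd Primrec.fst
    · exact prim_natCast.comp (Primrec.nat_sub.comp Primrec.fst Primrec.snd)
    · exact prim_negSucc.comp (Primrec.nat_sub.comp
        (Primrec.nat_sub.comp Primrec.snd Primrec.fst) (Primrec.const 1))
  refine h.of_eq ?_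
  rintro ⟨a, b⟩
  by_cases hab : b ≤ a
  · simp only [hab, if_true]
    omega
  · simp only [hab, if_false]
    omega

theorem prim_toNat : Primrec Int.toNat := by
  have h : Primrec (fun z : ℤ => cond (Nat.bodd (encode z)) 0 (Nat.div2 (encode z))) :=
    Primrec.cond (Primrec.nat_bodd.comp Primrec.encode) (Primrec.const 0)
      (Primrec.nat_div2.comp Primrec.encode)
  refine h.of_eq ?_
  intro z
  cases z with
  | ofNat n =>
    have : encode (Int.ofNat n) = 2 * n := rfl
    rw [this]
    simp [Nat.div2_val]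
  | negSucc n =>
    rw [encode_int_negSucc]
    simp

theorem prim_negToNat : Primrec (fun z : ℤ => (-z).toNat) := by
  have h : Primrec (fun z : ℤ => cond (Nat.bodd (encode z)) (Nat.div2 (encode z) + 1) 0) :=
    Primrec.cond (Primrec.nat_bodd.comp Primrec.encode)
      (Primrec.succ.comp (Primrec.nat_div2.comp Primrec.encode)) (Primrec.const 0)
  refine h.of_eq ?_
  intro z
  cases z with
  | ofNat n =>
    have : encode (Int.ofNat n) = 2 * n := rfl
    rw [this]
    simp
  | negSucc n =>
    rw [encode_int_negSucc]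
    simp [Nat.div2_val]

theorem prim_int_neg : Primrec (fun z : ℤ => -z) := by
  refine (prim_subNat.comp prim_negToNat prim_toNat).of_eq ?_
  intro z
  omega

theorem prim_int_add : Primrec₂ (fun a b : ℤ => a + b) := by
  have h : Primrec (fun p : ℤ × ℤ => ((p.1.toNat + p.2.toNat : ℕ) : ℤ)
      - (((-p.1).toNat + (-p.2).toNat : ℕ) : ℤ)) :=
    prim_subNat.comp
      (Primrec.nat_add.comp (prim_toNat.comp Primrec.fst) (prim_toNat.comp Primrec.snd))
      (Primrec.nat_add.comp (prim_negToNat.comp Primrec.fst) (prim_negToNat.comp Primrec.snd))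
  refine h.of_eq ?_
  rintro ⟨a, b⟩
  simp only
  push_cast
  omega

theorem prim_int_sub : Primrec₂ (fun a b : ℤ => a - b) := by
  refine (prim_int_add.comp Primrec.fst (prim_int_neg.comp Primrec.snd)).of_eq ?_
  rintro ⟨a, b⟩
  simp only
  omega

theorem prim_int_mul : Primrec₂ (fun a b : ℤ => a * b) := by
  have h : Primrec (fun p : ℤ × ℤ =>
      ((p.1.toNat * p.2.toNat + (-p.1).toNat * (-p.2).toNat : ℕ) : ℤ)
      - ((p.1.toNat * (-p.2).toNat + (-p.1).toNat * p.2.toNat : ℕ) : ℤ)) :=
    prim_subNat.comp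
      (Primrec.nat_add.comp
        (Primrec.nat_mul.comp (prim_toNat.comp Primrec.fst) (prim_toNat.comp Primrec.snd))
        (Primrec.nat_mul.comp (prim_negToNat.comp Primrec.fst) (prim_negToNat.comp Primrec.snd)))
      (Primrec.nat_add.comp
        (Primrec.nat_mul.comp (prim_toNat.comp Primrec.fst) (prim_negToNat.comp Primrec.snd))
        (Primrec.nat_mul.comp (prim_negToNat.comp Primrec.fst) (prim_toNat.comp Primrec.snd)))
  refine h.of_eq ?_
  rintro ⟨a, b⟩
  simp only
  have ha : (a.toNat : ℤ) - ((-a).toNat : ℤ) = a := by omega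
  have hb : (b.toNat : ℤ) - ((-b).toNat : ℤ) = b := by omega
  push_cast
  calc _ = ((a.toNat : ℤ) - ((-a).toNat : ℤ)) * ((b.toNat : ℤ) - ((-b).toNat : ℤ)) := by ring
    _ = a * b := by rw [ha, hb]

theorem prim_int_le : PrimrecRel (fun a b : ℤ => a ≤ b) := by
  have h : PrimrecPred (fun p : ℤ × ℤ =>
      p.1.toNat + (-p.2).toNat ≤ p.2.toNat + (-p.1).toNat) :=
    Primrec.nat_le.comp
      (Primrec.nat_add.comp (prim_toNat.comp Primrec.fst) (prim_negToNat.comp Primrec.snd))
      (Primrec.nat_add.comp (prim_toNat.comp Primrec.snd) (prim_negToNat.comp Primrec.fst))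
  refine PrimrecPred.of_eq h ?_
  rintro ⟨a, b⟩
  simp only
  omega

theorem prim_int_lt : PrimrecRel (fun a b : ℤ => a < b) := by
  have h : PrimrecPred (fun p : ℤ × ℤ =>
      p.1.toNat + (-p.2).toNat < p.2.toNat + (-p.1).toNat) :=
    Primrec.nat_lt.comp
      (Primrec.nat_add.comp (prim_toNat.comp Primrec.fst) (prim_negToNat.comp Primrec.snd))
      (Primrec.nat_add.comp (prim_toNat.comp Primrec.snd) (prim_negToNat.comp Primrec.fst))
  refine PrimrecPred.of_eq h ?_
  rintro ⟨a, b⟩
  simp only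
  omega

theorem prim_natAbs : Primrec Int.natAbs := by
  refine (Primrec.nat_add.comp prim_toNat prim_negToNat).of_eq ?_
  intro z
  omega

theorem prim_int_abs : Primrec (fun z : ℤ => |z|) := by
  refine (prim_natCast.comp prim_natAbs).of_eq ?_
  intro z
  simp

theorem prim_nat_pow : Primrec₂ (fun a b : ℕ => a ^ b) := by
  exact Primrec₂.unpaired'.1 Nat.Primrec.pow

end IntPrim

/-! ### Fractions -/

namespace Frac

theorem den_pos (x : Frac) : (0 : ℝ) < (x.2 : ℝ) + 1 := by positivity

def add (x y : Frac) : Frac :=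
  (x.1 * ((y.2 : ℤ) + 1) + y.1 * ((x.2 : ℤ) + 1), x.2 * y.2 + x.2 + y.2)

def neg (x : Frac) : Frac := (-x.1, x.2)

def mul (x y : Frac) : Frac := (x.1 * y.1, x.2 * y.2 + x.2 + y.2)

def abs (x : Frac) : Frac := (|x.1|, x.2)

/-- Inverse of a positive fraction. -/
def inv (x : Frac) : Frac := ((x.2 : ℤ) + 1, x.1.toNat - 1)

def ofNat (n : ℕ) : Frac := ((n : ℤ), 0)

def ofInt (n : ℤ) : Frac := (n, 0)

/-- Comparison of fractions. -/
def le (x y : Frac) : Bool := decide (x.1 * ((y.2 : ℤ) + 1) ≤ y.1 * ((x.2 : ℤ) + 1))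

/-- Strict comparison of fractions. -/
def lt (x y : Frac) : Bool := decide (x.1 * ((y.2 : ℤ) + 1) < y.1 * ((x.2 : ℤ) + 1))

theorem val_add (x y : Frac) : fracVal (add x y) = fracVal x + fracVal y := by
  have hx := den_pos x
  have hy := den_pos y
  simp only [fracVal, add]
  push_cast
  rw [div_add_div _ _ hx.ne' hy.ne']
  congr 1 <;> ring

theorem val_neg (x : Frac) : fracVal (neg x) = - fracVal x := by
  simp only [fracVal, neg]
  push_cast
  ring

theorem val_mul (x y : Frac) : fracVal (mul x y) = fracVal x * fracVal y := by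
  have hx := den_pos x
  have hy := den_pos y
  simp only [fracVal, mul]
  push_cast
  rw [div_mul_div_comm]
  congr 1
  ring

theorem val_abs (x : Frac) : fracVal (abs x) = |fracVal x| := by
  have hx := den_pos x
  simp only [fracVal, abs]
  rw [abs_div, abs_of_pos hx]
  push_cast
  rfl

theorem val_inv (x : Frac) (h : 0 < fracVal x) : fracVal (inv x) = (fracVal x)⁻¹ := by
  have hx := den_pos x
  have h1 : 0 < x.1 := by
    by_contra hneg
    have : (x.1 : ℝ) ≤ 0 := by exact_mod_cast not_lt.1 hneg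
    exact absurd h (not_lt.2 (div_nonpos_of_nonpos_of_nonneg this hx.le))
  have h2 : ((x.1.toNat - 1 : ℕ) : ℝ) + 1 = (x.1 : ℝ) := by
    have : ((x.1.toNat - 1 : ℕ) : ℤ) + 1 = x.1 := by omega
    exact_mod_cast this
  simp only [fracVal, inv]
  rw [h2]
  push_cast
  rw [inv_div]

@[simp] theorem val_ofNat (n : ℕ) : fracVal (ofNat n) = n := by simp [fracVal, ofNat]

@[simp] theorem val_ofInt (n : ℤ) : fracVal (ofInt n) = n := by simp [fracVal, ofInt]

theorem le_iff (x y : Frac) : le x y = true ↔ fracVal x ≤ fracVal y := by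
  have hx := den_pos x
  have hy := den_pos y
  simp only [le, decide_eq_true_eq, fracVal]
  rw [div_le_div_iff₀ hx hy]
  constructor
  · intro h
    exact_mod_cast h
  · intro h
    exact_mod_cast h

theorem lt_iff (x y : Frac) : lt x y = true ↔ fracVal x < fracVal y := by
  have hx := den_pos x
  have hy := den_pos y
  simp only [lt, decide_eq_true_eq, fracVal]
  rw [div_lt_div_iff₀ hx hy]
  constructor
  · intro h
    exact_mod_cast h
  · intro h
    exact_mod_cast h

theorem prim_add : Primrec₂ add := by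
  unfold add
  have c1 : Primrec (fun p : Frac × Frac => p.1.1 * ((p.2.2 : ℤ) + 1) + p.2.1 * ((p.1.2 : ℤ) + 1)) :=
    prim_int_add.comp
      (prim_int_mul.comp (Primrec.fst.comp Primrec.fst)
        (prim_int_add.comp (prim_natCast.comp (Primrec.snd.comp Primrec.snd)) (Primrec.const 1)))
      (prim_int_mul.comp (Primrec.fst.comp Primrec.snd)
        (prim_int_add.comp (prim_natCast.comp (Primrec.snd.comp Primrec.fst)) (Primrec.const 1)))
  have c2 : Primrec (fun p : Frac × Frac => p.1.2 * p.2.2 + p.1.2 + p.2.2) :=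
    Primrec.nat_add.comp (Primrec.nat_add.comp
      (Primrec.nat_mul.comp (Primrec.snd.comp Primrec.fst) (Primrec.snd.comp Primrec.snd))
      (Primrec.snd.comp Primrec.fst)) (Primrec.snd.comp Primrec.snd)
  exact c1.pair c2

theorem prim_neg : Primrec neg := by
  unfold neg
  exact (prim_int_neg.comp Primrec.fst).pair Primrec.snd

theorem prim_mul : Primrec₂ mul := by
  unfold mul
  have c1 : Primrec (fun p : Frac × Frac => p.1.1 * p.2.1) :=
    prim_int_mul.comp (Primrec.fst.comp Primrec.fst) (Primrec.fst.comp Primrec.snd)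
  have c2 : Primrec (fun p : Frac × Frac => p.1.2 * p.2.2 + p.1.2 + p.2.2) :=
    Primrec.nat_add.comp (Primrec.nat_add.comp
      (Primrec.nat_mul.comp (Primrec.snd.comp Primrec.fst) (Primrec.snd.comp Primrec.snd))
      (Primrec.snd.comp Primrec.fst)) (Primrec.snd.comp Primrec.snd)
  exact c1.pair c2

theorem prim_abs : Primrec abs := by
  unfold abs
  exact (prim_int_abs.comp Primrec.fst).pair Primrec.snd

theorem prim_inv : Primrec inv := by
  unfold inv
  exact (prim_int_add.comp (prim_natCast.comp Primrec.snd) (Primrec.const 1)).pair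
    (Primrec.nat_sub.comp (prim_toNat.comp Primrec.fst) (Primrec.const 1))

theorem prim_ofNat : Primrec ofNat := prim_natCast.pair (Primrec.const 0)

theorem prim_ofInt : Primrec ofInt := Primrec.id.pair (Primrec.const 0)

theorem prim_le : Primrec₂ le := by
  have h : PrimrecPred (fun p : Frac × Frac =>
      p.1.1 * ((p.2.2 : ℤ) + 1) ≤ p.2.1 * ((p.1.2 : ℤ) + 1)) :=
    prim_int_le.comp
      (prim_int_mul.comp (Primrec.fst.comp Primrec.fst)
        (prim_int_add.comp (prim_natCast.comp (Primrec.snd.comp Primrec.snd)) (Primrec.const 1)))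
      (prim_int_mul.comp (Primrec.fst.comp Primrec.snd)
        (prim_int_add.comp (prim_natCast.comp (Primrec.snd.comp Primrec.fst)) (Primrec.const 1)))
  exact primrecPred_iff_primrec_decide.1 h

theorem prim_lt : Primrec₂ lt := by
  have h : PrimrecPred (fun p : Frac × Frac =>
      p.1.1 * ((p.2.2 : ℤ) + 1) < p.2.1 * ((p.1.2 : ℤ) + 1)) :=
    prim_int_lt.comp
      (prim_int_mul.comp (Primrec.fst.comp Primrec.fst)
        (prim_int_add.comp (prim_natCast.comp (Primrec.snd.comp Primrec.snd)) (Primrec.const 1)))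
      (prim_int_mul.comp (Primrec.fst.comp Primrec.snd)
        (prim_int_add.comp (prim_natCast.comp (Primrec.snd.comp Primrec.fst)) (Primrec.const 1)))
  exact primrecPred_iff_primrec_decide.1 h

/-- Power of a fraction. -/
def pow (x : Frac) (n : ℕ) : Frac := Nat.rec (1, 0) (fun _ y => mul y x) n

theorem val_pow (x : Frac) (n : ℕ) : fracVal (pow x n) = fracVal x ^ n := by
  induction n with
  | zero => simp [pow, fracVal]
  | succ n ih =>
    have : pow x (n + 1) = mul (pow x n) x := rfl
    rw [this, val_mul, ih, pow_succ]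

theorem prim_pow : Primrec₂ pow := by
  have h : Primrec (fun p : Frac × ℕ => (Nat.rec (1, 0) (fun _ y => mul y p.1) p.2 : Frac)) := by
    refine Primrec.nat_rec' (f := fun p : Frac × ℕ => p.2) (g := fun _ => ((1, 0) : Frac))
      (h := fun p q => mul q.2 p.1) Primrec.snd (Primrec.const _) ?_
    exact prim_mul.comp (Primrec.snd.comp Primrec.snd) (Primrec.fst.comp Primrec.fst)
  exact h

end Frac

/-! ### Uniformly computable families of reals -/

open Filter Topology

/-- `F` is a uniformly computable family of reals on the set of indices satisfying `s`: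
rational approximations `A (a, n)` with rational error bounds `B (a, n)` tending to zero. -/
def UCROn {α : Type*} [Primcodable α] (s : α → Prop) (F : α → ℝ) : Prop :=
  ∃ A B : α × ℕ → Frac, Computable A ∧ Computable B ∧
    (∀ a, s a → ∀ n, |F a - (fracVal (A (a, n)))| ≤ (fracVal (B (a, n)))) ∧
    ∀ a, s a → Tendsto (fun n => (fracVal (B (a, n)))) atTop (𝓝 0)

/-- Uniformly computable family of reals. -/
def UCR {α : Type*} [Primcodable α] (F : α → ℝ) : Prop := UCROn (fun _ => True) F

section Closure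

variable {α β : Type*} [Primcodable α] [Primcodable β] {s t : α → Prop} {F G : α → ℝ}

theorem UCROn.mono (h : UCROn s F) (hst : ∀ a, t a → s a) : UCROn t F := by
  obtain ⟨A, B, hA, hB, h1, h2⟩ := h
  exact ⟨A, B, hA, hB, fun a ha n => h1 a (hst a ha) n, fun a ha => h2 a (hst a ha)⟩

theorem UCR.on (h : UCR F) (s : α → Prop) : UCROn s F := UCROn.mono h (fun _ _ => trivial)

theorem UCROn.congr (h : UCROn s F) (hFG : ∀ a, s a → F a = G a) : UCROn s G := by
  obtain ⟨A, B, hA, hB, h1, h2⟩ := h
  exact ⟨A, B, hA, hB, fun a ha n => by rw [← hFG a ha]; exact h1 a ha n, h2⟩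

theorem UCR.congr (h : UCR F) (hFG : ∀ a, F a = G a) : UCR G :=
  UCROn.congr h (fun a _ => hFG a)

theorem ucrOn_frac {g : α → Frac} (hg : Computable g) (s : α → Prop) :
    UCROn s (fun a => (fracVal (g a))) := by
  refine ⟨fun p => g p.1, fun _ => (0, 0), hg.comp Computable.fst, Computable.const _, ?_, ?_⟩
  · intro a _ n
    simp [fracVal]
  · intro a _
    simp [fracVal]

theorem ucr_frac {g : α → Frac} (hg : Computable g) : UCR (fun a => (fracVal (g a))) :=
  ucrOn_frac hg _

theorem ucr_nat {g : α → ℕ} (hg : Computable g) : UCR (fun a => (g a : ℝ)) :=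
  (ucr_frac (Frac.prim_ofNat.to_comp.comp hg)).congr (fun a => by simp)

theorem ucr_int {g : α → ℤ} (hg : Computable g) : UCR (fun a => (g a : ℝ)) :=
  (ucr_frac (Frac.prim_ofInt.to_comp.comp hg)).congr (fun a => by simp)

theorem ucr_zero : UCR (fun _ : α => (0 : ℝ)) :=
  (ucr_nat (Computable.const 0)).congr (fun a => by simp)

theorem ucr_one : UCR (fun _ : α => (1 : ℝ)) :=
  (ucr_nat (Computable.const 1)).congr (fun a => by simp)

theorem UCROn.comp {F : β → ℝ} {s : β → Prop} (h : UCROn s F) {g : α → β} (hg : Computable g) :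
    UCROn (fun a => s (g a)) (fun a => F (g a)) := by
  obtain ⟨A, B, hA, hB, h1, h2⟩ := h
  have hg' : Computable (fun p : α × ℕ => (g p.1, p.2)) :=
    (hg.comp Computable.fst).pair Computable.snd
  exact ⟨fun p => A (g p.1, p.2), fun p => B (g p.1, p.2), hA.comp hg', hB.comp hg',
    fun a ha n => h1 (g a) ha n, fun a ha => h2 (g a) ha⟩

theorem UCR.comp {F : β → ℝ} (h : UCR F) {g : α → β} (hg : Computable g) :
    UCR (fun a => F (g a)) := UCROn.comp h hg

theorem UCROn.neg (h : UCROn s F) : UCROn s (fun a => - F a) := by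
  obtain ⟨A, B, hA, hB, h1, h2⟩ := h
  refine ⟨fun p => (A p).neg, B, Frac.prim_neg.to_comp.comp hA, hB, ?_, h2⟩
  intro a ha n
  rw [Frac.val_neg]
  have := h1 a ha n
  rw [abs_sub_comm] at this
  rwa [show - F a - - (fracVal (A (a, n))) = (fracVal (A (a, n))) - F a by ring]

theorem UCROn.add (hF : UCROn s F) (hG : UCROn s G) : UCROn s (fun a => F a + G a) := by
  obtain ⟨A, B, hA, hB, h1, h2⟩ := hF
  obtain ⟨A', B', hA', hB', h1', h2'⟩ := hG
  refine ⟨fun p => (A p).add (A' p), fun p => (B p).add (B' p),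
    Frac.prim_add.to_comp.comp hA hA', Frac.prim_add.to_comp.comp hB hB', ?_, ?_⟩
  · intro a ha n
    rw [Frac.val_add, Frac.val_add]
    have e1 := h1 a ha n
    have e2 := h1' a ha n
    calc |F a + G a - ((fracVal (A (a, n))) + (fracVal (A' (a, n))))|
        = |(F a - (fracVal (A (a, n)))) + (G a - (fracVal (A' (a, n))))| := by ring_nf
      _ ≤ |F a - (fracVal (A (a, n)))| + |G a - (fracVal (A' (a, n)))| := abs_add_le _ _
      _ ≤ _ := add_le_add e1 e2
  · intro a ha
    have := (h2 a ha).add (h2' a ha)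
    simpa [Frac.val_add] using this

theorem UCROn.sub (hF : UCROn s F) (hG : UCROn s G) : UCROn s (fun a => F a - G a) :=
  (hF.add hG.neg).congr (fun a _ => by ring)

omit [Primcodable α] in
theorem UCROn.tendsto {A B : α × ℕ → Frac} {a : α}
    (h1 : ∀ n, |F a - (fracVal (A (a, n)))| ≤ (fracVal (B (a, n))))
    (h2 : Tendsto (fun n => (fracVal (B (a, n)))) atTop (𝓝 0)) :
    Tendsto (fun n => (fracVal (A (a, n)))) atTop (𝓝 (F a)) := by
  rw [tendsto_iff_norm_sub_tendsto_zero]
  refine squeeze_zero (fun n => norm_nonneg _) (fun n => ?_) h2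
  rw [Real.norm_eq_abs, abs_sub_comm]
  exact h1 n

theorem UCROn.mul (hF : UCROn s F) (hG : UCROn s G) : UCROn s (fun a => F a * G a) := by
  obtain ⟨A, B, hA, hB, h1, h2⟩ := hF
  obtain ⟨A', B', hA', hB', h1', h2'⟩ := hG
  refine ⟨fun p => (A p).mul (A' p),
    fun p => (((A p).abs.add (B p)).mul (B' p)).add ((A' p).abs.mul (B p)),
    Frac.prim_mul.to_comp.comp hA hA', ?_, ?_, ?_⟩
  · exact Frac.prim_add.to_comp.comp
      (Frac.prim_mul.to_comp.comp
        (Frac.prim_add.to_comp.comp (Frac.prim_abs.to_comp.comp hA) hB) hB')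
      (Frac.prim_mul.to_comp.comp (Frac.prim_abs.to_comp.comp hA') hB)
  · intro a ha n
    have e1 := h1 a ha n
    have e2 := h1' a ha n
    rw [Frac.val_mul, Frac.val_add, Frac.val_mul, Frac.val_mul, Frac.val_add, Frac.val_abs,
      Frac.val_abs]
    set x := (fracVal (A (a, n)))
    set y := (fracVal (A' (a, n)))
    set b := (fracVal (B (a, n)))
    set b' := (fracVal (B' (a, n)))
    have hb : 0 ≤ b := (abs_nonneg _).trans e1
    have hF' : |F a| ≤ |x| + b := by
      have : |F a| ≤ |F a - x| + |x| := by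
        simpa using abs_add_le (F a - x) x
      linarith
    calc |F a * G a - x * y| = |F a * (G a - y) + (F a - x) * y| := by ring_nf
      _ ≤ |F a * (G a - y)| + |(F a - x) * y| := abs_add_le _ _
      _ = |F a| * |G a - y| + |F a - x| * |y| := by rw [abs_mul, abs_mul]
      _ ≤ (|x| + b) * b' + b * |y| := by
          refine add_le_add (mul_le_mul hF' e2 (abs_nonneg _) (by positivity)) ?_
          exact mul_le_mul_of_nonneg_right e1 (abs_nonneg _)
      _ = _ := by ring
  · intro a ha
    have t1 := UCROn.tendsto (h1 a ha) (h2 a ha)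
    have t2 := UCROn.tendsto (h1' a ha) (h2' a ha)
    have := ((t1.abs.add (h2 a ha)).mul (h2' a ha)).add (t2.abs.mul (h2 a ha))
    simpa [Frac.val_add, Frac.val_mul, Frac.val_abs] using this

theorem UCR.neg (h : UCR F) : UCR (fun a => - F a) := UCROn.neg h

theorem UCR.add (hF : UCR F) (hG : UCR G) : UCR (fun a => F a + G a) := UCROn.add hF hG

theorem UCR.sub (hF : UCR F) (hG : UCR G) : UCR (fun a => F a - G a) := UCROn.sub hF hG

theorem UCR.mul (hF : UCR F) (hG : UCR G) : UCR (fun a => F a * G a) := UCROn.mul hF hG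

theorem UCROn.cond {c : α → Bool} (hc : Computable c)
    (hF : UCROn (fun a => s a ∧ c a = true) F) (hG : UCROn (fun a => s a ∧ c a = false) G) :
    UCROn s (fun a => bif c a then F a else G a) := by
  obtain ⟨A, B, hA, hB, h1, h2⟩ := hF
  obtain ⟨A', B', hA', hB', h1', h2'⟩ := hG
  refine ⟨fun p => bif c p.1 then A p else A' p, fun p => bif c p.1 then B p else B' p,
    Computable.cond (hc.comp Computable.fst) hA hA',
    Computable.cond (hc.comp Computable.fst) hB hB', ?_, ?_⟩
  · intro a ha n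
    cases hca : c a with
    | true => simpa [hca] using h1 a ⟨ha, hca⟩ n
    | false => simpa [hca] using h1' a ⟨ha, hca⟩ n
  · intro a ha
    cases hca : c a with
    | true => simpa [hca] using h2 a ⟨ha, hca⟩
    | false => simpa [hca] using h2' a ⟨ha, hca⟩

theorem UCR.cond {c : α → Bool} (hc : Computable c)
    (hF : UCROn (fun a => c a = true) F) (hG : UCROn (fun a => c a = false) G) :
    UCR (fun a => bif c a then F a else G a) :=
  UCROn.cond hc (hF.mono fun _ h => h.2) (hG.mono fun _ h => h.2)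

/-- Iterated fraction addition. -/
def Frac.sumTo (f : ℕ → Frac) (N : ℕ) : Frac :=
  Nat.rec (0, 0) (fun i y => Frac.add y (f i)) N

theorem Frac.val_sumTo (f : ℕ → Frac) (N : ℕ) :
    (fracVal (Frac.sumTo f N)) = ∑ i ∈ Finset.range N, (fracVal (f i)) := by
  induction N with
  | zero => simp [Frac.sumTo, fracVal]
  | succ n ih =>
    have : Frac.sumTo f (n + 1) = (Frac.sumTo f n).add (f n) := rfl
    rw [this, Frac.val_add, ih, Finset.sum_range_succ]

theorem Frac.computable_sumTo {f : α × ℕ → Frac} (hf : Computable f) {N : α → ℕ}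
    (hN : Computable N) : Computable (fun a => Frac.sumTo (fun i => f (a, i)) (N a)) := by
  refine Computable.nat_rec (f := N) (g := fun _ => ((0, 0) : Frac))
    (h := fun a q => Frac.add q.2 (f (a, q.1))) hN (Computable.const _) ?_
  have h1 : Computable (fun p : α × ℕ × Frac => f (p.1, p.2.1)) :=
    hf.comp (Computable.fst.pair (Computable.fst.comp Computable.snd))
  exact Frac.prim_add.to_comp.comp (Computable.snd.comp Computable.snd) h1

/-- Finite sums of uniformly computable reals. -/
theorem UCROn.sum_range {F : α × ℕ → ℝ} {N : α → ℕ} (hN : Computable N)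
    (hF : UCROn (fun p : α × ℕ => s p.1 ∧ p.2 < N p.1) F) :
    UCROn s (fun a => ∑ i ∈ Finset.range (N a), F (a, i)) := by
  obtain ⟨A, B, hA, hB, h1, h2⟩ := hF
  have key : ∀ {C : (α × ℕ) × ℕ → Frac}, Computable C →
      Computable (fun p : α × ℕ => Frac.sumTo (fun i => C ((p.1, i), p.2)) (N p.1)) := by
    intro C hC
    have h : Computable (fun q : (α × ℕ) × ℕ => C ((q.1.1, q.2), q.1.2)) :=
      hC.comp (((Computable.fst.comp Computable.fst).pair Computable.snd).pair
        (Computable.snd.comp Computable.fst))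
    exact Frac.computable_sumTo (f := fun q : (α × ℕ) × ℕ => C ((q.1.1, q.2), q.1.2)) h
      (hN.comp Computable.fst)
  refine ⟨fun p => Frac.sumTo (fun i => A ((p.1, i), p.2)) (N p.1),
    fun p => Frac.sumTo (fun i => B ((p.1, i), p.2)) (N p.1), key hA, key hB, ?_, ?_⟩
  · intro a ha n
    simp only [Frac.val_sumTo]
    rw [← Finset.sum_sub_distrib]
    refine (Finset.abs_sum_le_sum_abs _ _).trans ?_
    refine Finset.sum_le_sum fun i hi => ?_
    exact h1 (a, i) ⟨ha, Finset.mem_range.1 hi⟩ n
  · intro a ha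
    simp only [Frac.val_sumTo]
    have : (0 : ℝ) = ∑ i ∈ Finset.range (N a), (0 : ℝ) := by simp
    rw [this]
    refine tendsto_finsetSum _ fun i hi => ?_
    exact h2 (a, i) ⟨ha, Finset.mem_range.1 hi⟩

theorem UCR.sum_range {F : α × ℕ → ℝ} {N : α → ℕ} (hN : Computable N) (hF : UCR F) :
    UCR (fun a => ∑ i ∈ Finset.range (N a), F (a, i)) :=
  UCROn.sum_range hN (hF.on _)

/-- Maximum of two fractions. -/
def Frac.max (x y : Frac) : Frac := bif Frac.le x y then y else x

theorem Frac.val_max (x y : Frac) : (fracVal (Frac.max x y)) = Max.max (fracVal x) (fracVal y) := by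
  unfold Frac.max
  cases h : Frac.le x y with
  | true =>
    have := (Frac.le_iff x y).1 h
    simp [this]
  | false =>
    have h' : ¬ ((fracVal x) ≤ (fracVal y)) := by
      intro hc
      have := (Frac.le_iff x y).2 hc
      rw [h] at this
      exact absurd this (by simp)
    simp [(not_le.1 h').le]

theorem Frac.prim_max : Primrec₂ Frac.max := by
  have : Primrec (fun p : Frac × Frac => bif Frac.le p.1 p.2 then p.2 else p.1) :=
    Primrec.cond Frac.prim_le Primrec.snd Primrec.fst
  exact this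

/-- Inverse of a computable family of reals with a computable positive lower bound. -/
theorem UCROn.inv (hF : UCROn s F) {δ : α → Frac} (hδ : Computable δ)
    (hpos : ∀ a, s a → 0 < (fracVal (δ a))) (hlow : ∀ a, s a → (fracVal (δ a)) ≤ F a) :
    UCROn s (fun a => (F a)⁻¹) := by
  obtain ⟨A, B, hA, hB, h1, h2⟩ := hF
  have hδ' : Computable (fun p : α × ℕ => δ p.1) := hδ.comp Computable.fst
  refine ⟨fun p => (Frac.max (A p) (δ p.1)).inv,
    fun p => (B p).mul ((δ p.1).inv.mul (δ p.1).inv), ?_, ?_, ?_, ?_⟩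
  · exact Frac.prim_inv.to_comp.comp (Frac.prim_max.to_comp.comp hA hδ')
  · exact Frac.prim_mul.to_comp.comp hB (Frac.prim_mul.to_comp.comp
      (Frac.prim_inv.to_comp.comp hδ') (Frac.prim_inv.to_comp.comp hδ'))
  · intro a ha n
    have e1 := h1 a ha n
    have hd := hpos a ha
    have hl := hlow a ha
    have hm : 0 < (fracVal (Frac.max (A (a, n)) (δ a))) := by
      rw [Frac.val_max]
      exact lt_max_of_lt_right hd
    simp only
    rw [Frac.val_inv _ hm, Frac.val_mul, Frac.val_mul, Frac.val_inv _ hd, Frac.val_max]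
    rw [Frac.val_max] at hm
    set x := (fracVal (A (a, n)))
    set b := (fracVal (B (a, n)))
    set d := (fracVal (δ a))
    set m := Max.max x d with hmdef
    have hFpos : 0 < F a := hd.trans_le hl
    have hdm : d ≤ m := le_max_right _ _
    have e2 : |m - F a| ≤ b := by
      refine le_trans ?_ e1
      rw [abs_sub_comm (F a) x]
      have h3 : F a = Max.max (F a) d := (max_eq_left hl).symm
      rw [hmdef]
      conv_lhs => rw [h3]
      exact abs_max_sub_max_le_abs _ _ _
    have hb : 0 ≤ b := (abs_nonneg _).trans e1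
    rw [inv_sub_inv hFpos.ne' hm.ne', abs_div, abs_of_pos (mul_pos hFpos hm)]
    rw [div_le_iff₀ (mul_pos hFpos hm)]
    have h4 : d * d ≤ F a * m := mul_le_mul hl hdm hd.le hFpos.le
    have h5 : 1 ≤ d⁻¹ * d⁻¹ * (F a * m) := by
      have h6 : d⁻¹ * d⁻¹ * (d * d) = 1 := by field_simp
      calc (1 : ℝ) = d⁻¹ * d⁻¹ * (d * d) := h6.symm
        _ ≤ _ := mul_le_mul_of_nonneg_left h4 (by positivity)
    calc |m - F a| ≤ b := e2
      _ = b * 1 := by ring
      _ ≤ b * (d⁻¹ * d⁻¹ * (F a * m)) := mul_le_mul_of_nonneg_left h5 hb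
      _ = _ := by ring
  · intro a ha
    have := (h2 a ha).mul_const (fracVal ((δ a).inv.mul (δ a).inv))
    simpa [Frac.val_mul] using this

theorem exp_neg_approx {x : ℝ} (hx : 0 ≤ x) (m : ℕ) (hm : 0 < m) :
    |Real.exp (-x) - ((m : ℝ) / (m + x)) ^ m| ≤ x ^ 2 / m := by
  have hm' : (0 : ℝ) < m := by exact_mod_cast hm
  have hmx : 0 < (m : ℝ) + x := by linarith
  set y : ℝ := x / m with hy
  have hy0 : 0 ≤ y := by positivity
  have h1y : 0 < 1 + y := by linarith
  have hfrac : (m : ℝ) / (m + x) = (1 + y)⁻¹ := by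
    rw [hy]
    field_simp
  rw [hfrac]
  have hpow : ((1 + y)⁻¹) ^ m = Real.exp (-(m * Real.log (1 + y))) := by
    rw [Real.exp_neg, inv_pow]
    congr 1
    rw [mul_comm, Real.exp_mul, Real.exp_log h1y]
    simp
  have hmy : (m : ℝ) * y = x := by rw [hy]; field_simp
  have hup : Real.log (1 + y) ≤ y := by
    have := Real.log_le_sub_one_of_pos h1y
    linarith
  have hlow : y - y ^ 2 ≤ Real.log (1 + y) := by
    have h := Real.one_sub_inv_le_log_of_pos h1y
    have h2 : y - y ^ 2 ≤ 1 - (1 + y)⁻¹ := by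
      rw [show (1 : ℝ) - (1 + y)⁻¹ = y / (1 + y) by field_simp; ring]
      rw [le_div_iff₀ h1y]
      nlinarith [pow_nonneg hy0 3]
    linarith
  rw [hpow]
  set L := (m : ℝ) * Real.log (1 + y) with hL
  have hL1 : L ≤ x := by
    rw [hL, ← hmy]
    exact mul_le_mul_of_nonneg_left hup hm'.le
  have hL2 : x - x ^ 2 / m ≤ L := by
    rw [hL]
    have : (m : ℝ) * (y - y ^ 2) ≤ m * Real.log (1 + y) := mul_le_mul_of_nonneg_left hlow hm'.le
    have h3 : (m : ℝ) * (y - y ^ 2) = x - x ^ 2 / m := by
      rw [hy]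
      field_simp
    linarith
  have hL0 : 0 ≤ L := by
    rw [hL]
    exact mul_nonneg hm'.le (Real.log_nonneg (by linarith))
  have hle : Real.exp (-x) ≤ Real.exp (-L) := Real.exp_le_exp.2 (by linarith)
  rw [abs_sub_comm, abs_of_nonneg (by linarith)]
  have h5 : Real.exp (-x) = Real.exp (-L) * Real.exp (-(x - L)) := by
    rw [← Real.exp_add]
    congr 1
    ring
  have h6 : 1 - (x - L) ≤ Real.exp (-(x - L)) := by
    have := Real.add_one_le_exp (-(x - L))
    linarith
  have h7 : Real.exp (-L) ≤ 1 := Real.exp_le_one_iff.2 (by linarith)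
  have h8 : 0 < Real.exp (-L) := Real.exp_pos _
  rw [h5]
  have h9 : Real.exp (-L) * (1 - (x - L)) ≤ Real.exp (-L) * Real.exp (-(x - L)) :=
    mul_le_mul_of_nonneg_left h6 h8.le
  have h10 : Real.exp (-L) * (x - L) ≤ 1 * (x ^ 2 / m) := by
    refine mul_le_mul h7 (by linarith) (by linarith) (by norm_num)
  nlinarith

/-- `exp (-F)` for a nonnegative computable family. -/
theorem UCROn.exp_neg (hF : UCROn s F) (hpos : ∀ a, s a → 0 ≤ F a) :
    UCROn s (fun a => Real.exp (- F a)) := by
  obtain ⟨A, B, hA, hB, h1, h2⟩ := hF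
  have hA' : Computable (fun p : α × ℕ => Frac.max (A p) (0, 0)) :=
    Frac.prim_max.to_comp.comp hA (Computable.const _)
  have hm : Computable (fun p : α × ℕ => Frac.ofNat (p.2 + 1)) :=
    Frac.prim_ofNat.to_comp.comp (Computable.succ.comp Computable.snd)
  refine ⟨fun p => Frac.pow (Frac.mul (Frac.ofNat (p.2 + 1))
      (Frac.inv (Frac.add (Frac.ofNat (p.2 + 1)) (Frac.max (A p) (0, 0))))) (p.2 + 1),
    fun p => (B p).add (Frac.mul (Frac.mul (Frac.max (A p) (0, 0)) (Frac.max (A p) (0, 0)))
      (Frac.inv (Frac.ofNat (p.2 + 1)))), ?_, ?_, ?_, ?_⟩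
  · exact Frac.prim_pow.to_comp.comp (Frac.prim_mul.to_comp.comp hm
      (Frac.prim_inv.to_comp.comp (Frac.prim_add.to_comp.comp hm hA')))
      (Computable.succ.comp Computable.snd)
  · exact Frac.prim_add.to_comp.comp hB (Frac.prim_mul.to_comp.comp
      (Frac.prim_mul.to_comp.comp hA' hA') (Frac.prim_inv.to_comp.comp hm))
  · intro a ha n
    have e1 := h1 a ha n
    have hp := hpos a ha
    have hz : fracVal (0, 0) = 0 := by simp [fracVal]
    have hn : (0 : ℝ) < ((n + 1 : ℕ) : ℝ) := by positivity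
    simp only [Frac.val_pow, Frac.val_mul, Frac.val_add, Frac.val_ofNat]
    rw [Frac.val_inv _ (by rw [Frac.val_add, Frac.val_ofNat, Frac.val_max, hz]; positivity),
      Frac.val_inv _ (by rw [Frac.val_ofNat]; positivity), Frac.val_add, Frac.val_ofNat,
      Frac.val_max, hz]
    set x := (fracVal (A (a, n)))
    set b := (fracVal (B (a, n)))
    set m := Max.max x 0 with hmdef
    have hm0 : 0 ≤ m := le_max_right _ _
    have e2 : |m - F a| ≤ b := by
      refine le_trans ?_ e1
      rw [abs_sub_comm (F a) x]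
      have h3 : F a = Max.max (F a) 0 := (max_eq_left hp).symm
      rw [hmdef]
      conv_lhs => rw [h3]
      exact abs_max_sub_max_le_abs _ _ _
    have e3 : |Real.exp (-F a) - Real.exp (-m)| ≤ |m - F a| := by
      rcases le_total (F a) m with hle | hle
      · rw [abs_of_nonneg (by
          have := Real.exp_le_exp.2 (neg_le_neg hle)
          linarith), abs_of_nonneg (by linarith)]
        have h5 : Real.exp (-m) = Real.exp (-F a) * Real.exp (-(m - F a)) := by
          rw [← Real.exp_add]
          congr 1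
          ring
        have h6 : 1 - (m - F a) ≤ Real.exp (-(m - F a)) := by
          have := Real.add_one_le_exp (-(m - F a))
          linarith
        have h7 : Real.exp (-F a) ≤ 1 := Real.exp_le_one_iff.2 (by linarith)
        have h8 := Real.exp_pos (-F a)
        rw [h5]
        nlinarith [mul_le_mul_of_nonneg_left h6 h8.le]
      · rw [abs_sub_comm, abs_of_nonneg (by
          have := Real.exp_le_exp.2 (neg_le_neg hle)
          linarith), abs_sub_comm, abs_of_nonneg (by linarith)]
        have h5 : Real.exp (-F a) = Real.exp (-m) * Real.exp (-(F a - m)) := by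
          rw [← Real.exp_add]
          congr 1
          ring
        have h6 : 1 - (F a - m) ≤ Real.exp (-(F a - m)) := by
          have := Real.add_one_le_exp (-(F a - m))
          linarith
        have h7 : Real.exp (-m) ≤ 1 := Real.exp_le_one_iff.2 (by linarith)
        have h8 := Real.exp_pos (-m)
        rw [h5]
        nlinarith [mul_le_mul_of_nonneg_left h6 h8.le]
    have e4 := exp_neg_approx hm0 (n + 1) (Nat.succ_pos n)
    calc |Real.exp (-F a) - (((n + 1 : ℕ) : ℝ) * (((n + 1 : ℕ) : ℝ) + m)⁻¹) ^ (n + 1)|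
        = |(Real.exp (-F a) - Real.exp (-m)) +
          (Real.exp (-m) - (((n + 1 : ℕ) : ℝ) / (((n + 1 : ℕ) : ℝ) + m)) ^ (n + 1))| := by
          rw [div_eq_mul_inv]; ring_nf
      _ ≤ |Real.exp (-F a) - Real.exp (-m)| +
          |Real.exp (-m) - (((n + 1 : ℕ) : ℝ) / (((n + 1 : ℕ) : ℝ) + m)) ^ (n + 1)| :=
          abs_add_le _ _
      _ ≤ b + m ^ 2 / ((n + 1 : ℕ) : ℝ) := add_le_add (e3.trans e2) e4
      _ = _ := by rw [div_eq_mul_inv]; ring
  · intro a ha
    have t1 := UCROn.tendsto (h1 a ha) (h2 a ha)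
    have hz : fracVal (0, 0) = 0 := by simp [fracVal]
    have t2 : Tendsto (fun n : ℕ => (((n + 1 : ℕ) : ℝ))⁻¹) atTop (𝓝 0) := by
      have := tendsto_one_div_add_atTop_nhds_zero_nat (𝕜 := ℝ)
      simpa using this
    have t3 := t1.max (tendsto_const_nhds (x := (0 : ℝ)))
    have := (h2 a ha).add ((t3.mul t3).mul t2)
    have e0 : (0 : ℝ) + Max.max (F a) 0 * Max.max (F a) 0 * 0 = 0 := by ring
    rw [e0] at this
    refine this.congr fun n => ?_
    rw [Frac.val_add, Frac.val_mul, Frac.val_mul, Frac.val_inv _ (by rw [Frac.val_ofNat]; positivity),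
      Frac.val_max, Frac.val_ofNat, hz]

end Closure

/-! ### Accuracy on demand and programs -/

section Programs

variable {α β : Type*} [Primcodable α] [Primcodable β]

/-- From a uniformly computable family one computes approximations of prescribed accuracy. -/
theorem UCR.exists_approx {F : α → ℝ} (hF : UCR F) :
    ∃ G : α × Frac → Frac, Computable G ∧
      ∀ a ε, 0 < (fracVal ε) → |F a - (fracVal (G (a, ε)))| ≤ (fracVal ε) := by
  obtain ⟨A, B, hA, hB, h1, h2⟩ := hF
  have h1' : ∀ a n, |F a - (fracVal (A (a, n)))| ≤ (fracVal (B (a, n))) := fun a n => h1 a trivial n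
  have h2' : ∀ a, Tendsto (fun n => (fracVal (B (a, n)))) atTop (𝓝 0) := fun a => h2 a trivial
  have hex : ∀ p : α × Frac, ∃ n, (Frac.le p.2 (0, 0) || Frac.le (B (p.1, n)) p.2) = true := by
    rintro ⟨a, ε⟩
    by_cases hε : 0 < (fracVal ε)
    · have := (h2' a).eventually (gt_mem_nhds hε)
      obtain ⟨n, hn⟩ := this.exists
      refine ⟨n, ?_⟩
      rw [Bool.or_eq_true]
      right
      exact (Frac.le_iff _ _).2 hn.le
    · refine ⟨0, ?_⟩
      rw [Bool.or_eq_true]
      left
      rw [Frac.le_iff]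
      simpa [fracVal] using not_lt.1 hε
  have hpred : Computable₂ (fun (p : α × Frac) (n : ℕ) =>
      (Frac.le p.2 (0, 0) || Frac.le (B (p.1, n)) p.2)) := by
    have c1 : Computable (fun q : (α × Frac) × ℕ => Frac.le q.1.2 (0, 0)) :=
      Frac.prim_le.to_comp.comp (Computable.snd.comp Computable.fst) (Computable.const _)
    have c2 : Computable (fun q : (α × Frac) × ℕ => Frac.le (B (q.1.1, q.2)) q.1.2) :=
      Frac.prim_le.to_comp.comp
        (hB.comp ((Computable.fst.comp Computable.fst).pair Computable.snd))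
        (Computable.snd.comp Computable.fst)
    exact (Primrec.or.to_comp.comp c1 c2)
  have hfind : Computable (fun p : α × Frac => Nat.find (hex p)) := by
    have hr : Partrec (fun p : α × Frac => Nat.rfind fun n =>
        Part.some (Frac.le p.2 (0, 0) || Frac.le (B (p.1, n)) p.2)) := Partrec.rfind hpred
    refine hr.of_eq_tot fun p => Nat.mem_rfind.2 ⟨?_, ?_⟩
    · have := Nat.find_spec (hex p)
      exact Part.mem_some_iff.2 this.symm
    · intro m hm
      have := Nat.find_min (hex p) hm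
      simp only [Bool.not_eq_true] at this
      exact Part.mem_some_iff.2 this.symm
  refine ⟨fun p => A (p.1, Nat.find (hex p)), hA.comp (Computable.fst.pair hfind), ?_⟩
  intro a ε hε
  have hs := Nat.find_spec (hex (a, ε))
  rw [Bool.or_eq_true] at hs
  rcases hs with hs | hs
  · rw [Frac.le_iff] at hs
    simp only [fracVal] at hs
    simp only [fracVal] at hε
    simp at hs
    exact absurd hε (not_lt.2 hs)
  · rw [Frac.le_iff] at hs
    exact (h1' a _).trans hs

/-- Packaging: a computable function of a parameter and a query yields computably, from the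
parameter, a program answering every query. -/
theorem exists_compile {σ : Type*} [Primcodable σ] {G : α × β → σ} (hG : Computable G) :
    ∃ compile : α → Nat.Partrec.Code, Computable compile ∧
      ∀ a b, (compile a).eval (encode b) = Part.some (encode (G (a, b))) := by
  have hG' : Nat.Partrec (fun n => Part.bind (decode (α := α × β) n) fun a =>
      Part.map encode (G a : Part σ)) := hG
  obtain ⟨c, hc⟩ := Nat.Partrec.Code.exists_code.1 hG'
  refine ⟨fun a => Nat.Partrec.Code.curry c (encode a), ?_, ?_⟩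
  · exact (Nat.Partrec.Code.primrec₂_curry.to_comp).comp (Computable.const c) Computable.encode
  · intro a b
    rw [Nat.Partrec.Code.eval_curry, hc]
    have : Nat.pair (encode a) (encode b) = encode (a, b) := rfl
    rw [this]
    simp

/-- A program which answers all queries gives a computable function. -/
theorem exists_computable_of_code {σ : Type*} [Primcodable σ] (c : Nat.Partrec.Code)
    (h : ∀ b : β, ∃ r : σ, encode r ∈ c.eval (encode b)) :
    ∃ A : β → σ, Computable A ∧ ∀ b, encode (A b) ∈ c.eval (encode b) := by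
  choose A hA using h
  refine ⟨A, ?_, hA⟩
  have h1 : Partrec (fun b : β => c.eval (encode b)) := by
    exact (Nat.Partrec.Code.eval_part.comp (Computable.const c) Computable.encode)
  have h2 : Computable (fun b : β => encode (A b)) := h1.of_eq_tot hA
  exact Computable.encode_iff.1 h2

/-- A family with approximations of accuracy `2⁻ⁿ` is uniformly computable. -/
theorem ucrOn_of_pow {s : α → Prop} {F : α → ℝ} {A : α × ℕ → Frac} (hA : Computable A)
    (h : ∀ a, s a → ∀ n, |F a - fracVal (A (a, n))| ≤ (1 / 2) ^ n) : UCROn s F := by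
  have hv : ∀ n : ℕ, fracVal (Frac.pow (1, 1) n) = (1 / 2) ^ n := by
    intro n
    rw [Frac.val_pow]
    congr 1
    simp [fracVal]
    norm_num
  refine ⟨A, fun p => Frac.pow (1, 1) p.2, hA,
    Frac.prim_pow.to_comp.comp (Computable.const _) Computable.snd, ?_, ?_⟩
  · intro a ha n
    rw [hv]
    exact h a ha n
  · intro a _
    simp only [hv]
    exact tendsto_pow_atTop_nhds_zero_of_lt_one (by norm_num) (by norm_num)

theorem ucr_of_pow {F : α → ℝ} {A : α × ℕ → Frac} (hA : Computable A)
    (h : ∀ a n, |F a - fracVal (A (a, n))| ≤ (1 / 2) ^ n) : UCR F :=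
  ucrOn_of_pow hA (fun a _ n => h a n)

theorem ucr_of_isComputableReal {ν : ℝ} (h : IsComputableReal ν) : UCR (fun _ : α => ν) := by
  obtain ⟨g, hg, hg'⟩ := h
  exact ucr_of_pow (A := fun p : α × ℕ => g p.2) (hg.comp Computable.snd) (fun _ n => hg' n)

end Programs

end Vale.Agent.P113
end

section

namespace Vale.Agent.P113.TM

open Vale.Agent.P113

/-! ## Simulation by list zippers -/

/-- List zipper step. -/
def zstep (M : Machine) (c : ℕ × List ℕ × ℕ × List ℕ) : ℕ × List ℕ × ℕ × List ℕ :=
  (M.1.lookup (c.1, c.2.2.1)).casesOn c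
    (fun r => r.2.2.casesOn (r.1, c.2.1, r.2.1, c.2.2.2)
      (fun d => if d then (r.1, r.2.1 :: c.2.1, c.2.2.2.headI, c.2.2.2.tail)
        else (r.1, c.2.1.tail, c.2.1.headI, r.2.1 :: c.2.2.2)))

def zinit (w : List ℕ) : ℕ × List ℕ × ℕ × List ℕ := (0, [], w.headI, w.tail)

def zinterp (c : ℕ × List ℕ × ℕ × List ℕ) : ℕ × Turing.Tape ℕ :=
  (c.1, ⟨c.2.2.1, Turing.ListBlank.mk c.2.1, Turing.ListBlank.mk c.2.2.2⟩)

theorem zinterp_zstep (M : Machine) (c : ℕ × List ℕ × ℕ × List ℕ) :
    zinterp (zstep M c) = step M (zinterp c) := by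
  obtain ⟨q, L, h, R⟩ := c
  unfold zstep step zinterp
  dsimp only
  cases hl : M.1.lookup (q, h) with
  | none => rfl
  | some r =>
    obtain ⟨q', a, d⟩ := r
    cases d with
    | none => rfl
    | some b => cases b <;> simp [Turing.Tape.move, Turing.Tape.write]

theorem zinterp_zinit (w : List ℕ) : zinterp (zinit w) = (0, Turing.Tape.mk₁ w) := by
  unfold zinterp zinit Turing.Tape.mk₁ Turing.Tape.mk₂ Turing.Tape.mk'
  simp

theorem zinterp_iterate (M : Machine) (n : ℕ) (c : ℕ × List ℕ × ℕ × List ℕ) :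
    zinterp ((zstep M)^[n] c) = (step M)^[n] (zinterp c) := by
  induction n generalizing c with
  | zero => rfl
  | succ n ih => rw [Function.iterate_succ_apply, Function.iterate_succ_apply, ih, zinterp_zstep]

theorem state_eq (M : Machine) (w : List ℕ) (n : ℕ) :
    ((step M)^[n] (0, Turing.Tape.mk₁ w)).1 = ((zstep M)^[n] (zinit w)).1 := by
  rw [← zinterp_zinit, ← zinterp_iterate]
  rfl

theorem primrec_lookup :
    Primrec₂ (fun (a : ℕ × ℕ) (l : List ((ℕ × ℕ) × (ℕ × ℕ × Option Bool))) => l.lookup a) := by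
  have hb : (instBEqProd : BEq (ℕ × ℕ)) = instBEqOfDecidableEq :=
    lawful_beq_subsingleton _ _
  rw [hb]
  exact Primrec.listLookup

theorem primrec_zstep : Primrec₂ zstep := by
  unfold zstep
  have hlook : Primrec (fun p : Machine × (ℕ × List ℕ × ℕ × List ℕ) =>
      p.1.1.lookup (p.2.1, p.2.2.2.1)) :=
    primrec_lookup.comp (Primrec.pair (Primrec.fst.comp Primrec.snd)
      (Primrec.fst.comp (Primrec.snd.comp (Primrec.snd.comp Primrec.snd))))
      (Primrec.fst.comp Primrec.fst)
  refine Primrec.option_casesOn hlook Primrec.snd ?_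
  -- variables: a = ((M, c), r)
  let α := (Machine × (ℕ × List ℕ × ℕ × List ℕ)) × (ℕ × ℕ × Option Bool)
  have hc : Primrec (fun p : α => p.1.2) := Primrec.snd.comp Primrec.fst
  have hr : Primrec (fun p : α => p.2) := Primrec.snd
  have hL : Primrec (fun p : α => p.1.2.2.1) := Primrec.fst.comp (Primrec.snd.comp hc)
  have hR : Primrec (fun p : α => p.1.2.2.2.2) :=
    Primrec.snd.comp (Primrec.snd.comp (Primrec.snd.comp hc))
  have hq : Primrec (fun p : α => p.2.1) := Primrec.fst.comp hr
  have ha : Primrec (fun p : α => p.2.2.1) := Primrec.fst.comp (Primrec.snd.comp hr)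
  have hd : Primrec (fun p : α => p.2.2.2) := Primrec.snd.comp (Primrec.snd.comp hr)
  have h0 : Primrec (fun p : α => (p.2.1, p.1.2.2.1, p.2.2.1, p.1.2.2.2.2)) :=
    Primrec.pair hq (Primrec.pair hL (Primrec.pair ha hR))
  have h1 : Primrec (fun p : α =>
      (p.2.1, p.2.2.1 :: p.1.2.2.1, p.1.2.2.2.2.headI, p.1.2.2.2.2.tail)) :=
    Primrec.pair hq (Primrec.pair (Primrec.list_cons.comp ha hL)
      (Primrec.pair (Primrec.list_headI.comp hR) (Primrec.list_tail.comp hR)))
  have h2 : Primrec (fun p : α =>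
      (p.2.1, p.1.2.2.1.tail, p.1.2.2.1.headI, p.2.2.1 :: p.1.2.2.2.2)) :=
    Primrec.pair hq (Primrec.pair (Primrec.list_tail.comp hL)
      (Primrec.pair (Primrec.list_headI.comp hL) (Primrec.list_cons.comp ha hR)))
  refine Primrec.option_casesOn hd h0 ?_
  refine (Primrec.cond Primrec.snd (h1.comp Primrec.fst) (h2.comp Primrec.fst)).of_eq ?_
  intro p
  cases h : p.2 <;> simp

theorem primrec_zinit : Primrec zinit := by
  unfold zinit
  exact Primrec.pair (Primrec.const 0) (Primrec.pair (Primrec.const [])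
    (Primrec.pair Primrec.list_headI Primrec.list_tail))

theorem primrec_listMem : Primrec₂ (fun (a : ℕ) (l : List ℕ) => decide (a ∈ l)) := by
  have h : Primrec₂ (fun (a : ℕ) (l : List ℕ) => decide (l.idxOf a < l.length)) := by
    have := (Primrec.nat_lt.comp (Primrec.list_idxOf (α := ℕ))
      (Primrec.list_length.comp Primrec.snd) :
        PrimrecPred (fun p : ℕ × List ℕ => p.2.idxOf p.1 < p.2.length))
    exact this.decide
  refine h.of_eq ?_
  intro a l
  simp [List.idxOf_lt_length_iff]

/-- The halting test at step `n`, as a boolean function. -/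
def haltAt (P : Machine × List ℕ) (n : ℕ) : Bool :=
  decide (((step P.1)^[n] (0, Turing.Tape.mk₁ P.2)).1 ∈ P.1.2)

theorem haltAt_eq (P : Machine × List ℕ) (n : ℕ) :
    haltAt P n = decide (((zstep P.1)^[n] (zinit P.2)).1 ∈ P.1.2) := by
  unfold haltAt
  rw [state_eq]

theorem primrec_haltAt : Primrec₂ haltAt := by
  have h1 : Primrec (fun p : (Machine × List ℕ) × ℕ => (zstep p.1.1)^[p.2] (zinit p.1.2)) :=
    Primrec.nat_iterate Primrec.snd (primrec_zinit.comp (Primrec.snd.comp Primrec.fst))
      (primrec_zstep.comp (Primrec.fst.comp (Primrec.fst.comp Primrec.fst)) Primrec.snd).to₂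
  have h2 : Primrec (fun p : (Machine × List ℕ) × ℕ =>
      decide (((zstep p.1.1)^[p.2] (zinit p.1.2)).1 ∈ p.1.1.2)) :=
    primrec_listMem.comp (Primrec.fst.comp h1)
      (Primrec.snd.comp (Primrec.fst.comp Primrec.fst))
  refine h2.of_eq ?_
  intro p
  rw [haltAt_eq]

theorem computable_haltAt : Computable₂ haltAt := primrec_haltAt.to_comp

theorem haltsOn_iff (P : Machine × List ℕ) : HaltsOn P.1 P.2 ↔ ∃ n, haltAt P n = true := by
  unfold HaltsOn haltAt
  simp

/-! ## The real number recording the halting behaviour -/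

/-- `rad P = ∑ 2^-(n+2)` over the `n` at which the machine is in a halting state. -/
noncomputable def rad (P : Machine × List ℕ) : ℝ :=
  ∑' n, if haltAt P n then (1 / 2 : ℝ) ^ (n + 2) else 0

theorem summable_geo : Summable (fun n : ℕ => (1 / 2 : ℝ) ^ (n + 2)) :=
  (summable_nat_add_iff 2).2 summable_geometric_two

theorem term_nonneg (P : Machine × List ℕ) (n : ℕ) :
    0 ≤ (if haltAt P n then (1 / 2 : ℝ) ^ (n + 2) else 0) := by
  split_ifs
  · positivity
  · exact le_refl _

theorem term_le (P : Machine × List ℕ) (n : ℕ) :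
    (if haltAt P n then (1 / 2 : ℝ) ^ (n + 2) else 0) ≤ (1 / 2 : ℝ) ^ (n + 2) := by
  split_ifs
  · exact le_refl _
  · positivity

theorem summable_term (P : Machine × List ℕ) :
    Summable (fun n : ℕ => if haltAt P n then (1 / 2 : ℝ) ^ (n + 2) else 0) :=
  Summable.of_nonneg_of_le (term_nonneg P) (term_le P) summable_geo

theorem tsum_geo : ∑' n : ℕ, (1 / 2 : ℝ) ^ (n + 2) = 1 / 2 := by
  simp only [pow_add]
  rw [tsum_mul_right, tsum_geometric_two]
  norm_num

theorem rad_nonneg (P : Machine × List ℕ) : 0 ≤ rad P :=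
  tsum_nonneg (term_nonneg P)

theorem rad_le (P : Machine × List ℕ) : rad P ≤ 1 / 2 := by
  rw [← tsum_geo]
  exact (summable_term P).tsum_le_tsum (term_le P) summable_geo

theorem rad_pos_iff (P : Machine × List ℕ) : 0 < rad P ↔ HaltsOn P.1 P.2 := by
  rw [haltsOn_iff]
  constructor
  · intro h
    by_contra hc
    push Not at hc
    have : rad P = 0 := by
      unfold rad
      have : ∀ n, (if haltAt P n then (1 / 2 : ℝ) ^ (n + 2) else 0) = 0 := by
        intro n
        rw [if_neg (hc n)]
      simp only [this, tsum_zero]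
    linarith
  · rintro ⟨n, hn⟩
    refine (summable_term P).tsum_pos (term_nonneg P) n ?_
    rw [if_pos hn]
    positivity

theorem rad_eq_zero (P : Machine × List ℕ) (h : ¬ HaltsOn P.1 P.2) : rad P = 0 := by
  rw [← rad_pos_iff] at h
  exact le_antisymm (not_lt.1 h) (rad_nonneg P)

/-! ## Computable approximations -/

/-- `radNum P n = ∑_{k<n} [halt at k] 2^(n-k)`. -/
def radNum (P : Machine × List ℕ) (n : ℕ) : ℕ :=
  Nat.rec (motive := fun _ => ℕ) 0 (fun k r => 2 * r + (if haltAt P k then 2 else 0)) n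

theorem radNum_zero (P : Machine × List ℕ) : radNum P 0 = 0 := rfl

theorem radNum_succ (P : Machine × List ℕ) (n : ℕ) :
    radNum P (n + 1) = 2 * radNum P n + (if haltAt P n then 2 else 0) := rfl

theorem primrec_radNum : Primrec₂ radNum := by
  have hk : Primrec (fun p : (Machine × List ℕ) × (ℕ × ℕ) => haltAt p.1 p.2.1) :=
    primrec_haltAt.comp Primrec.fst (Primrec.fst.comp Primrec.snd)
  have h : Primrec (fun p : (Machine × List ℕ) × (ℕ × ℕ) =>
      2 * p.2.2 + cond (haltAt p.1 p.2.1) 2 0) :=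
    Primrec.nat_add.comp
      (Primrec.nat_mul.comp (Primrec.const 2) (Primrec.snd.comp Primrec.snd))
      (Primrec.cond hk (Primrec.const 2) (Primrec.const 0))
  have h' : Primrec₂ (fun (P : Machine × List ℕ) (q : ℕ × ℕ) =>
      2 * q.2 + (if haltAt P q.1 then 2 else 0)) := by
    refine h.of_eq ?_
    intro p
    cases hh : haltAt p.1 p.2.1
    · simp only [cond_false]
      rw [if_neg (by rw [hh]; exact Bool.false_ne_true)]
    · simp only [cond_true]
      rw [if_pos hh]
  exact Primrec.nat_rec (f := fun _ : Machine × List ℕ => (0 : ℕ)) (Primrec.const 0) h'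

theorem radNum_eq (P : Machine × List ℕ) (n : ℕ) :
    (radNum P n : ℝ) / 2 ^ (n + 2)
      = ∑ k ∈ Finset.range n, (if haltAt P k then (1 / 2 : ℝ) ^ (k + 2) else 0) := by
  induction n with
  | zero => simp [radNum_zero]
  | succ n ih =>
    rw [Finset.sum_range_succ, ← ih, radNum_succ]
    have h2 : (2 : ℝ) ^ (n + 1 + 2) = 2 * 2 ^ (n + 2) := by ring
    have h3 : (1 / 2 : ℝ) ^ (n + 2) = 1 / 2 ^ (n + 2) := by rw [one_div_pow]
    have h4 : (2 : ℝ) ^ (n + 2) ≠ 0 := by positivity
    split_ifs with h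
    · push_cast
      rw [h2, h3]
      generalize (2 : ℝ) ^ (n + 2) = z at h4
      field_simp
    · push_cast
      rw [h2]
      generalize (2 : ℝ) ^ (n + 2) = z at h4
      field_simp
      ring

/-- Fractions approximating `rad P`. -/
def radApprox (P : Machine × List ℕ) (n : ℕ) : Frac :=
  (Int.ofNat (radNum P n), 2 ^ (n + 2) - 1)

theorem fracVal_radApprox (P : Machine × List ℕ) (n : ℕ) :
    fracVal (radApprox P n) = (radNum P n : ℝ) / 2 ^ (n + 2) := by
  unfold fracVal radApprox
  have h : ((2 ^ (n + 2) - 1 : ℕ) : ℝ) + 1 = 2 ^ (n + 2) := by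
    have h1 : 1 ≤ 2 ^ (n + 2) := Nat.one_le_two_pow
    have h2 : (2 ^ (n + 2) - 1 : ℕ) + 1 = 2 ^ (n + 2) := Nat.sub_add_cancel h1
    exact_mod_cast h2
  dsimp only
  rw [h]
  simp

theorem radApprox_error (P : Machine × List ℕ) (n : ℕ) :
    |rad P - fracVal (radApprox P n)| ≤ (1 / 2) ^ n := by
  rw [fracVal_radApprox, radNum_eq]
  have hs := (summable_term P).sum_add_tsum_nat_add n
  have hrad : rad P = ∑' n, if haltAt P n then (1 / 2 : ℝ) ^ (n + 2) else 0 := rfl
  rw [hrad, ← hs, add_sub_cancel_left]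
  have hnn : 0 ≤ ∑' k, (if haltAt P (k + n) then (1 / 2 : ℝ) ^ (k + n + 2) else 0) :=
    tsum_nonneg (fun k => term_nonneg P (k + n))
  rw [abs_of_nonneg hnn]
  have h1 : Summable (fun k : ℕ => (1 / 2 : ℝ) ^ (k + n + 2)) := by
    have := (summable_nat_add_iff n).2 summable_geo
    simpa using this
  have h2 : ∑' k, (if haltAt P (k + n) then (1 / 2 : ℝ) ^ (k + n + 2) else 0)
      ≤ ∑' k : ℕ, (1 / 2 : ℝ) ^ (k + n + 2) :=
    ((summable_nat_add_iff n).2 (summable_term P)).tsum_le_tsum
      (fun k => term_le P (k + n)) h1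
  have h3 : ∑' k : ℕ, (1 / 2 : ℝ) ^ (k + n + 2) = (1 / 2) ^ n * (1 / 2) := by
    have : ∀ k : ℕ, (1 / 2 : ℝ) ^ (k + n + 2) = (1 / 2) ^ (k + 2) * (1 / 2) ^ n := by
      intro k; rw [← pow_add]; congr 1; ring
    simp only [this]
    rw [tsum_mul_right, tsum_geo]
    ring
  rw [h3] at h2
  have h4 : (0 : ℝ) ≤ (1 / 2) ^ n := by positivity
  linarith

theorem primrec_intOfNat : Primrec Int.ofNat := by
  apply Primrec.encode_iff.1
  exact (Primrec.nat_mul.comp (Primrec.const 2) Primrec.id).of_eq (fun n => rfl)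

theorem primrec_pow2 : Primrec (fun n : ℕ => 2 ^ n) := by
  have h : Primrec (fun n : ℕ => Nat.rec (motive := fun _ => ℕ) 1 (fun _ r => 2 * r) n) :=
    Primrec.nat_rec₁ 1 (Primrec.nat_mul.comp (Primrec.const 2) Primrec.snd).to₂
  refine h.of_eq ?_
  intro n
  induction n with
  | zero => rfl
  | succ n ih => rw [pow_succ, ← ih]; exact mul_comm _ _

theorem primrec_radApprox : Primrec₂ radApprox := by
  unfold radApprox
  have h1 : Primrec (fun p : (Machine × List ℕ) × ℕ => Int.ofNat (radNum p.1 p.2)) :=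
    primrec_intOfNat.comp (primrec_radNum.comp Primrec.fst Primrec.snd)
  have h2 : Primrec (fun p : (Machine × List ℕ) × ℕ => 2 ^ (p.2 + 2) - 1) :=
    Primrec.nat_sub.comp
      (primrec_pow2.comp (Primrec.nat_add.comp Primrec.snd (Primrec.const 2)))
      (Primrec.const 1)
  exact Primrec.pair h1 h2

theorem computable_radApprox : Computable₂ radApprox := primrec_radApprox.to_comp

end Vale.Agent.P113.TM
end

section

namespace Vale.Agent.P113

open Encodable

/-- Fractional part of a fraction. -/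
def Frac.fract (x : Frac) : Frac := (x.1 % ((x.2 + 1 : ℕ) : ℤ), x.2)

theorem Frac.val_fract (x : Frac) : fracVal (Frac.fract x) = Int.fract (fracVal x) := by
  have h := Int.fract_div_intCast_eq_div_intCast_mod (k := ℝ) (m := x.1) (n := x.2 + 1)
  unfold fracVal Frac.fract
  push_cast at h ⊢
  exact h.symm

theorem prim_int_emod_succ : Primrec₂ (fun (a : ℤ) (b : ℕ) => a % ((b + 1 : ℕ) : ℤ)) := by
  have h : Primrec (fun p : ℤ × ℕ =>
      (((p.1.toNat + ((p.2 + 1) - (-p.1).toNat % (p.2 + 1))) % (p.2 + 1) : ℕ) : ℤ)) := by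
    have hb : Primrec (fun p : ℤ × ℕ => p.2 + 1) := Primrec.succ.comp Primrec.snd
    exact prim_natCast.comp (Primrec.nat_mod.comp (Primrec.nat_add.comp
      (prim_toNat.comp Primrec.fst)
      (Primrec.nat_sub.comp hb (Primrec.nat_mod.comp (prim_negToNat.comp Primrec.fst) hb))) hb)
  refine h.of_eq ?_
  rintro ⟨a, b⟩
  simp only
  have hlt : (-a).toNat % (b + 1) ≤ b + 1 := (Nat.mod_lt _ (Nat.succ_pos b)).le
  push_cast [Nat.cast_sub hlt]
  have ha : (a.toNat : ℤ) - ((-a).toNat : ℤ) = a := by omega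
  have hm : (((-a).toNat : ℤ) % ((b : ℤ) + 1)) = ((-a).toNat : ℤ) - ((b : ℤ) + 1) *
      (((-a).toNat : ℤ) / ((b : ℤ) + 1)) := by
    rw [Int.emod_def]
  rw [hm]
  have : (a.toNat : ℤ) + ((b : ℤ) + 1 - (((-a).toNat : ℤ) - ((b : ℤ) + 1) *
      (((-a).toNat : ℤ) / ((b : ℤ) + 1)))) =
      a + ((b : ℤ) + 1) * (1 + ((-a).toNat : ℤ) / ((b : ℤ) + 1)) := by
    linear_combination ha
  rw [this, Int.add_mul_emod_self_left]

theorem Frac.prim_fract : Primrec Frac.fract := by
  unfold Frac.fract
  exact (prim_int_emod_succ.comp Primrec.fst Primrec.snd).pair Primrec.snd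

/-- The hypothesis that all derivatives of the bump are uniformly computable at rationals. -/
def BumpUCR : Prop := UCR (fun q : ℕ × Frac => iteratedDeriv q.1 bump (fracVal q.2))

variable {A : Type*} [Primcodable A]

theorem ucr_bump (hb : BumpUCR) {n : A → ℕ} {t : A → Frac} (hn : Computable n)
    (ht : Computable t) : UCR (fun a => iteratedDeriv (n a) bump (fracVal (t a))) :=
  UCR.comp (F := fun q : ℕ × Frac => iteratedDeriv q.1 bump (fracVal q.2)) hb (hn.pair ht)

theorem ucr_bump_fract (hb : BumpUCR) {n : A → ℕ} {t : A → Frac} (hn : Computable n)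
    (ht : Computable t) : UCR (fun a => iteratedDeriv (n a) bump (Int.fract (fracVal (t a)))) :=
  (ucr_bump hb hn (Frac.prim_fract.to_comp.comp ht)).congr
    (fun a => by rw [Frac.val_fract])

theorem ucr_pulse (hb : BumpUCR) {n : A → ℕ} {t : A → Frac} (hn : Computable n)
    (ht : Computable t) : UCR (fun a => iteratedDeriv (n a) pulse (fracVal (t a))) :=
  ((ucr_bump_fract hb hn ht).sub (ucr_bump hb hn ht)).congr
    (fun a => by rw [iteratedDeriv_pulse])

theorem ucr_bper (hb : BumpUCR) :
    UCR (fun q : A × ℕ × Frac => iteratedDeriv q.2.1 bper (fracVal q.2.2)) :=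
  (ucr_bump_fract hb (Computable.fst.comp Computable.snd)
    (Computable.snd.comp Computable.snd)).congr
    (fun a => by rw [iteratedDeriv_bper]; rfl)

/-- The mixed derivatives of the components of the force. -/
noncomputable def mixedF (ν r : ℝ) (ψ : ℝ → ℝ) (i : Fin 3) (α : ℕ × ℕ × ℕ × ℕ) (t y : ℝ) : ℝ :=
  if i = 0 then
    if α.2.1 = 0 ∧ α.2.2.1 = 0 ∧ α.2.2.2 = 0 then iteratedDeriv (α.1 + 1) bump t * r else 0
  else if i = 1 then
    if α.2.2.1 = 0 ∧ α.2.2.2 = 0 then
      iteratedDeriv (α.1 + 1) pulse t * iteratedDeriv α.2.1 ψ y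
        - ν * (iteratedDeriv α.1 pulse t * iteratedDeriv (α.2.1 + 2) ψ y)
    else 0
  else 0

/-- The type of queries (without the accuracy). -/
abbrev Query := Fin 3 × (ℕ × ℕ × ℕ × ℕ) × Frac × (Frac × Frac × Frac)

theorem ucr_mixedF (hb : BumpUCR) {ν : ℝ} (hν : IsComputableReal ν) {r : A → ℝ} (hr : UCR r)
    {ψ : A → ℝ → ℝ}
    (hψ : UCR (fun q : A × ℕ × Frac => iteratedDeriv q.2.1 (ψ q.1) (fracVal q.2.2))) :
    UCR (fun z : A × Query => mixedF ν (r z.1) (ψ z.1) z.2.1 z.2.2.1 (fracVal z.2.2.2.1)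
      (fracVal z.2.2.2.2.1)) := by
  -- coordinate projections
  have ca : Primrec (fun z : A × Query => z.1) := Primrec.fst
  have ci : Primrec (fun z : A × Query => z.2.1) := Primrec.fst.comp Primrec.snd
  have cα : Primrec (fun z : A × Query => z.2.2.1) :=
    Primrec.fst.comp (Primrec.snd.comp Primrec.snd)
  have c0 : Primrec (fun z : A × Query => z.2.2.1.1) := Primrec.fst.comp cα
  have c1 : Primrec (fun z : A × Query => z.2.2.1.2.1) :=
    Primrec.fst.comp (Primrec.snd.comp cα)
  have c2 : Primrec (fun z : A × Query => z.2.2.1.2.2.1) :=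
    Primrec.fst.comp (Primrec.snd.comp (Primrec.snd.comp cα))
  have c3 : Primrec (fun z : A × Query => z.2.2.1.2.2.2) :=
    Primrec.snd.comp (Primrec.snd.comp (Primrec.snd.comp cα))
  have cr : Primrec (fun z : A × Query => z.2.2.2) :=
    Primrec.snd.comp (Primrec.snd.comp Primrec.snd)
  have ct : Primrec (fun z : A × Query => z.2.2.2.1) := Primrec.fst.comp cr
  have cx : Primrec (fun z : A × Query => z.2.2.2.2.1) :=
    Primrec.fst.comp (Primrec.snd.comp cr)
  -- the boolean tests
  have t0 : Computable (fun z : A × Query => decide (z.2.1 = 0)) :=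
    (Primrec.eq.decide.comp ci (Primrec.const 0)).to_comp
  have t1 : Computable (fun z : A × Query => decide (z.2.1 = 1)) :=
    (Primrec.eq.decide.comp ci (Primrec.const 1)).to_comp
  have e1 : Primrec (fun z : A × Query => decide (z.2.2.1.2.1 = 0)) :=
    Primrec.eq.decide.comp c1 (Primrec.const 0)
  have e2 : Primrec (fun z : A × Query => decide (z.2.2.1.2.2.1 = 0)) :=
    Primrec.eq.decide.comp c2 (Primrec.const 0)
  have e3 : Primrec (fun z : A × Query => decide (z.2.2.1.2.2.2 = 0)) :=
    Primrec.eq.decide.comp c3 (Primrec.const 0)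
  have b0 : Computable (fun z : A × Query =>
      (decide (z.2.2.1.2.1 = 0) && (decide (z.2.2.1.2.2.1 = 0) && decide (z.2.2.1.2.2.2 = 0)))) :=
    (Primrec.and.comp e1 (Primrec.and.comp e2 e3)).to_comp
  have b1 : Computable (fun z : A × Query =>
      (decide (z.2.2.1.2.2.1 = 0) && decide (z.2.2.1.2.2.2 = 0))) :=
    (Primrec.and.comp e2 e3).to_comp
  -- the real factors
  have f0 : UCR (fun z : A × Query =>
      iteratedDeriv (z.2.2.1.1 + 1) bump (fracVal z.2.2.2.1) * r z.1) :=
    (ucr_bump hb (Computable.succ.comp c0.to_comp) ct.to_comp).mul (hr.comp Computable.fst)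
  have p0 : UCR (fun z : A × Query => iteratedDeriv z.2.2.1.1 pulse (fracVal z.2.2.2.1)) :=
    ucr_pulse hb c0.to_comp ct.to_comp
  have p1 : UCR (fun z : A × Query => iteratedDeriv (z.2.2.1.1 + 1) pulse (fracVal z.2.2.2.1)) :=
    ucr_pulse hb (Computable.succ.comp c0.to_comp) ct.to_comp
  have q0 : UCR (fun z : A × Query => iteratedDeriv z.2.2.1.2.1 (ψ z.1) (fracVal z.2.2.2.2.1)) :=
    UCR.comp (g := fun z : A × Query => (z.1, z.2.2.1.2.1, z.2.2.2.2.1)) hψ
      (ca.pair (c1.pair cx)).to_comp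
  have q2 : UCR (fun z : A × Query =>
      iteratedDeriv (z.2.2.1.2.1 + 2) (ψ z.1) (fracVal z.2.2.2.2.1)) :=
    UCR.comp (g := fun z : A × Query => (z.1, z.2.2.1.2.1 + 2, z.2.2.2.2.1)) hψ
      (ca.pair ((Primrec.nat_add.comp c1 (Primrec.const 2)).pair cx)).to_comp
  have f1 := (p1.mul q0).sub ((ucr_of_isComputableReal (α := A × Query) hν).mul (p0.mul q2))
  have hz : UCR (fun _ : A × Query => (0 : ℝ)) := ucr_zero
  have g0 := UCR.cond b0 (f0.on _) (hz.on _)
  have g1 := UCR.cond b1 (f1.on _) (hz.on _)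
  have g2 := UCR.cond t1 (g1.on _) (hz.on _)
  have g3 := UCR.cond t0 (g0.on _) (g2.on _)
  refine g3.congr ?_
  intro z
  unfold mixedF
  by_cases h0 : z.2.1 = 0
  · simp only [h0, decide_true, cond_true, if_true]
    by_cases h : z.2.2.1.2.1 = 0 ∧ z.2.2.1.2.2.1 = 0 ∧ z.2.2.1.2.2.2 = 0
    · rw [if_pos h]
      simp [h.1, h.2.1, h.2.2]
    · rw [if_neg h]
      have : (decide (z.2.2.1.2.1 = 0) && (decide (z.2.2.1.2.2.1 = 0) &&
          decide (z.2.2.1.2.2.2 = 0))) = false := by
        simpa using h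
      rw [this]
      rfl
  · simp only [h0, decide_false, cond_false, if_false]
    by_cases h1 : z.2.1 = 1
    · simp only [h1, decide_true, cond_true, if_true]
      by_cases h : z.2.2.1.2.2.1 = 0 ∧ z.2.2.1.2.2.2 = 0
      · rw [if_pos h]
        simp [h.1, h.2]
      · rw [if_neg h]
        have : (decide (z.2.2.1.2.2.1 = 0) && decide (z.2.2.1.2.2.2 = 0)) = false := by
          simpa using h
        rw [this]
        rfl
    · simp [h1]

/-- If all mixed derivatives of the force are given by `mixedF` with uniformly computable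
amplitude and profile, there is a computable compiler producing programs for the force. -/
theorem exists_compiler (hb : BumpUCR) {ν : ℝ} (hν : IsComputableReal ν) {r : A → ℝ}
    (hr : UCR r) {ψ : A → ℝ → ℝ}
    (hψ : UCR (fun q : A × ℕ × Frac => iteratedDeriv q.2.1 (ψ q.1) (fracVal q.2.2)))
    {f : A → ℝ → T3 → E3}
    (hf : ∀ P i α t x, mixed α (fun s y => f P s (proj y) i) t x
      = mixedF ν (r P) (ψ P) i α t (x 0)) :
    ∃ compile : A → Nat.Partrec.Code, Computable compile ∧ ∀ P, Computes (compile P) (f P) := by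
  obtain ⟨G, hG, hG'⟩ := (ucr_mixedF hb hν hr hψ).exists_approx
  let H : A × (Fin 3 × (ℕ × ℕ × ℕ × ℕ) × Frac × (Frac × Frac × Frac) × Frac) → Frac :=
    fun z => G ((z.1, (z.2.1, z.2.2.1, z.2.2.2.1, z.2.2.2.2.1)), z.2.2.2.2.2)
  have hH : Computable H := by
    have c1 : Primrec (fun z : A × (Fin 3 × (ℕ × ℕ × ℕ × ℕ) × Frac × (Frac × Frac × Frac) × Frac)
        => z.2.2.2.2) :=
      Primrec.snd.comp (Primrec.snd.comp (Primrec.snd.comp Primrec.snd))
    have c2 : Primrec (fun z : A × (Fin 3 × (ℕ × ℕ × ℕ × ℕ) × Frac × (Frac × Frac × Frac) × Frac)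
        => ((z.1, (z.2.1, z.2.2.1, z.2.2.2.1, z.2.2.2.2.1)), z.2.2.2.2.2)) := by
      refine Primrec.pair (Primrec.pair Primrec.fst (Primrec.pair
        (Primrec.fst.comp Primrec.snd) (Primrec.pair
        (Primrec.fst.comp (Primrec.snd.comp Primrec.snd)) (Primrec.pair
        (Primrec.fst.comp (Primrec.snd.comp (Primrec.snd.comp Primrec.snd)))
        (Primrec.fst.comp c1))))) (Primrec.snd.comp c1)
    exact hG.comp c2.to_comp
  obtain ⟨compile, hc, hc'⟩ := exists_compile hH
  refine ⟨compile, hc, ?_⟩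
  intro P i α t x ε _ hε
  refine ⟨H (P, (i, α, t, x, ε)), ?_, ?_⟩
  · rw [hc']
    exact Part.mem_some _
  · rw [hf]
    exact hG' (P, (i, α, t, x)) ε hε

/-- The amplitude `rad` is uniformly computable. -/
theorem ucr_rad : UCR TM.rad :=
  ucr_of_pow (A := fun p : (Machine × List ℕ) × ℕ => TM.radApprox p.1 p.2)
    TM.computable_radApprox TM.radApprox_error

end Vale.Agent.P113
end

section

namespace Vale.Agent.P113

open scoped ContDiff Topology
open Set Filter

theorem iteratedDeriv_fun_const' (n : ℕ) (c x : ℝ) :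
    iteratedDeriv n (fun _ : ℝ => c) x = if n = 0 then c else 0 := by
  rw [iteratedDeriv_const]

theorem mixed_frc {ν r : ℝ} {ψ : ℝ → ℝ} (hψ : Function.Periodic ψ 1) (hs : ContDiff ℝ ∞ ψ)
    (i : Fin 3) (α : ℕ × ℕ × ℕ × ℕ) (t : ℝ) (x : E3) :
    mixed α (fun s y => frc ν r ψ s (proj y) i) t x = mixedF ν r ψ i α t (x 0) := by
  obtain ⟨a, j1, j2, j3⟩ := α
  unfold mixed mixedF
  simp only [frc_proj hψ]
  have hC : ∀ {g : ℝ → ℝ}, ContDiff ℝ ∞ g → ∀ (n : ℕ) y, ContDiffAt ℝ n g y := fun hg n y =>
    (hg.of_le (by exact_mod_cast le_top)).contDiffAt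
  fin_cases i
  · simp only [Fin.zero_eta, Matrix.cons_val_zero, iteratedDeriv_fun_const', if_true]
    by_cases h1 : j1 = 0
    · by_cases h2 : j2 = 0
      · by_cases h3 : j3 = 0
        · simp only [h1, h2, h3, if_true, and_self]
          rw [iteratedDeriv_mul_const_field, iteratedDeriv_succ']
        · simp [h1, h2, h3]
      · simp [h1, h2]
    · simp [h1]
  · simp only [Fin.mk_one, Matrix.cons_val_one, Matrix.cons_val_zero, iteratedDeriv_fun_const']
    by_cases h2 : j2 = 0
    · by_cases h3 : j3 = 0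
      · have hdd : ContDiff ℝ ∞ (deriv (deriv ψ)) := deriv_smooth (deriv_smooth hs)
        have e1 : ∀ s : ℝ, iteratedDeriv j1 (fun y₁ : ℝ =>
            deriv pulse s * ψ y₁ - ν * (pulse s * deriv (deriv ψ) y₁)) (x 0) =
            deriv pulse s * iteratedDeriv j1 ψ (x 0)
              - ν * (pulse s * iteratedDeriv (j1 + 2) ψ (x 0)) := by
          intro s
          have : (fun y₁ : ℝ => deriv pulse s * ψ y₁ - ν * (pulse s * deriv (deriv ψ) y₁)) =
              (fun y₁ : ℝ => deriv pulse s * ψ y₁) -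
                (fun y₁ : ℝ => ν * (pulse s * deriv (deriv ψ) y₁)) := rfl
          rw [this, iteratedDeriv_sub, iteratedDeriv_const_mul_field, iteratedDeriv_const_mul_field,
            iteratedDeriv_const_mul_field]
          · rw [iteratedDeriv_succ', iteratedDeriv_succ']
          · exact contDiffAt_const.mul (hC hs _ _)
          · exact contDiffAt_const.mul (contDiffAt_const.mul (hC hdd _ _))
        simp only [h2, h3, if_true, and_self, e1]
        simp only [one_ne_zero, if_false]
        have : (fun s : ℝ => deriv pulse s * iteratedDeriv j1 ψ (x 0)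
              - ν * (pulse s * iteratedDeriv (j1 + 2) ψ (x 0))) =
            (fun s : ℝ => deriv pulse s * iteratedDeriv j1 ψ (x 0)) -
              (fun s : ℝ => ν * (pulse s * iteratedDeriv (j1 + 2) ψ (x 0))) := rfl
        rw [this, iteratedDeriv_sub, iteratedDeriv_mul_const_field, iteratedDeriv_const_mul_field,
          iteratedDeriv_mul_const_field, ← iteratedDeriv_succ']
        · exact (hC (deriv_smooth pulse_contDiff) _ _).mul contDiffAt_const
        · exact contDiffAt_const.mul ((hC pulse_contDiff _ _).mul contDiffAt_const)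
      · simp [h2, h3]
    · simp [h2]
  · simp

end Vale.Agent.P113
end
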