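import Mathlib
import Vale.Agent.P113.Defs
import Vale.Agent.P113.Bdl.B2
import Vale.Agent.P113.Bdl.B1
import Vale.Agent.P113.DefsTwo

section

open Set MeasureTheory

namespace Vale.Agent.P113

theorem pd_sub (i : Fin 3) {g h : E3 → ℝ} {x : E3} (hg : DifferentiableAt ℝ g x)
    (hh : DifferentiableAt ℝ h x) : pd i (fun y => g y - h y) x = pd i g x - pd i h x := by
  unfold pd
  rw [fderiv_fun_sub hg hh]
  rfl

/-- `g` is differentiable at `x` with `i`-th partial derivative `g'`. -/
def HPD (i : Fin 3) (g : E3 → ℝ) (x : E3) (g' : ℝ) : Prop :=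
  DifferentiableAt ℝ g x ∧ pd i g x = g'

theorem HPD.add {i : Fin 3} {g h : E3 → ℝ} {x : E3} {g' h' : ℝ} (hg : HPD i g x g')
    (hh : HPD i h x h') : HPD i (fun y => g y + h y) x (g' + h') := by
  refine ⟨hg.1.fun_add hh.1, ?_⟩
  rw [← hg.2, ← hh.2]
  unfold pd
  rw [fderiv_fun_add hg.1 hh.1]
  rfl

theorem HPD.sub {i : Fin 3} {g h : E3 → ℝ} {x : E3} {g' h' : ℝ} (hg : HPD i g x g')
    (hh : HPD i h x h') : HPD i (fun y => g y - h y) x (g' - h') := by
  refine ⟨hg.1.fun_sub hh.1, ?_⟩
  rw [← hg.2, ← hh.2]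
  unfold pd
  rw [fderiv_fun_sub hg.1 hh.1]
  rfl

theorem HPD.mul {i : Fin 3} {g h : E3 → ℝ} {x : E3} {g' h' : ℝ} (hg : HPD i g x g')
    (hh : HPD i h x h') : HPD i (fun y => g y * h y) x (g' * h x + g x * h') := by
  refine ⟨hg.1.fun_mul hh.1, ?_⟩
  rw [← hg.2, ← hh.2]
  unfold pd
  rw [fderiv_fun_mul hg.1 hh.1]
  simp
  ring

theorem HPD.const_mul {i : Fin 3} (c : ℝ) {g : E3 → ℝ} {x : E3} {g' : ℝ} (hg : HPD i g x g') :
    HPD i (fun y => c * g y) x (c * g') := by
  refine ⟨hg.1.const_mul c, ?_⟩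
  rw [← hg.2]
  unfold pd
  rw [fderiv_const_mul hg.1]
  simp

theorem HPD.of {i : Fin 3} {g : E3 → ℝ} {x : E3} (hg : DifferentiableAt ℝ g x) :
    HPD i g x (pd i g x) := ⟨hg, rfl⟩

theorem contDiff_pd (i : Fin 3) {g : E3 → ℝ} (hg : ContDiff ℝ 2 g) : ContDiff ℝ 1 (pd i g) := by
  unfold pd
  have : ContDiff ℝ 1 (fderiv ℝ g) := hg.fderiv_right (by norm_num)
  exact this.clm_apply contDiff_const

/-- The flux field used in the energy identity. -/
noncomputable def flux (ν : ℝ) (a w : Fin 3 → E3 → ℝ) (r : E3 → ℝ) (i : Fin 3) : E3 → ℝ :=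
  fun y => (-(1/2)) * (a i y * (w 0 y * w 0 y + w 1 y * w 1 y + w 2 y * w 2 y)) - w i y * r y
    + ν * (w 0 y * pd i (w 0) y + w 1 y * pd i (w 1) y + w 2 y * pd i (w 2) y)

theorem contDiff_flux (ν : ℝ) (a w : Fin 3 → E3 → ℝ) (r : E3 → ℝ) (i : Fin 3)
    (ha : ∀ i, ContDiff ℝ 2 (a i)) (hw : ∀ i, ContDiff ℝ 2 (w i)) (hr : ContDiff ℝ 1 r) :
    ContDiff ℝ 1 (flux ν a w r i) := by
  have ha' : ∀ i, ContDiff ℝ 1 (a i) := fun i => (ha i).of_le (by norm_num)
  have hw' : ∀ i, ContDiff ℝ 1 (w i) := fun i => (hw i).of_le (by norm_num)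
  have hp : ∀ i j, ContDiff ℝ 1 (pd i (w j)) := fun i j => contDiff_pd i (hw j)
  unfold flux
  exact ((contDiff_const.mul ((ha' i).mul ((((hw' 0).mul (hw' 0)).add ((hw' 1).mul (hw' 1))).add
    ((hw' 2).mul (hw' 2))))).sub ((hw' i).mul hr)).add
    (contDiff_const.mul ((((hw' 0).mul (hp i 0)).add ((hw' 1).mul (hp i 1))).add
    ((hw' 2).mul (hp i 2))))

theorem pd_flux (ν : ℝ) (a w : Fin 3 → E3 → ℝ) (r : E3 → ℝ) (i : Fin 3)
    (ha : ∀ i, ContDiff ℝ 2 (a i)) (hw : ∀ i, ContDiff ℝ 2 (w i)) (hr : ContDiff ℝ 1 r) (x : E3) :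
    pd i (flux ν a w r i) x =
      (-(1/2)) * (pd i (a i) x * (w 0 x * w 0 x + w 1 x * w 1 x + w 2 x * w 2 x))
      - a i x * (w 0 x * pd i (w 0) x + w 1 x * pd i (w 1) x + w 2 x * pd i (w 2) x)
      - (pd i (w i) x * r x + w i x * pd i r x)
      + ν * ((pd i (w 0) x)^2 + (pd i (w 1) x)^2 + (pd i (w 2) x)^2)
      + ν * (w 0 x * pd i (pd i (w 0)) x + w 1 x * pd i (pd i (w 1)) x
        + w 2 x * pd i (pd i (w 2)) x) := by
  have ha' : ∀ i, DifferentiableAt ℝ (a i) x :=
    fun i => ((ha i).differentiable (by norm_num)).differentiableAt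
  have hw' : ∀ i, DifferentiableAt ℝ (w i) x :=
    fun i => ((hw i).differentiable (by norm_num)).differentiableAt
  have hp : ∀ i j, DifferentiableAt ℝ (pd i (w j)) x := fun i j =>
    ((contDiff_pd i (hw j)).differentiable (by norm_num)).differentiableAt
  have hr' : DifferentiableAt ℝ r x := (hr.differentiable (by norm_num)).differentiableAt
  have H := (((HPD.of (ha' i)).mul ((((HPD.of (hw' 0)).mul (HPD.of (hw' 0))).add
    ((HPD.of (hw' 1)).mul (HPD.of (hw' 1)))).add
    ((HPD.of (hw' 2)).mul (HPD.of (hw' 2)))) : HPD i _ x _).const_mul (-(1/2))).sub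
    ((HPD.of (hw' i)).mul (HPD.of hr')) |>.add
    (((((HPD.of (hw' 0)).mul (HPD.of (hp i 0))).add ((HPD.of (hw' 1)).mul (HPD.of (hp i 1)))).add
    ((HPD.of (hw' 2)).mul (HPD.of (hp i 2)))).const_mul ν)
  have H2 := H.2
  have H3 : pd i (flux ν a w r i) x = _ := H2
  rw [H3]
  ring

/-- Pointwise energy identity for the difference of two solutions. -/
theorem energy_pointwise (ν : ℝ) (a b : Fin 3 → E3 → ℝ) (p q : E3 → ℝ)
    (ha : ∀ i, ContDiff ℝ 2 (a i)) (hb : ∀ i, ContDiff ℝ 2 (b i))
    (hp : ContDiff ℝ 1 p) (hq : ContDiff ℝ 1 q) (x : E3) (at' bt f : Fin 3 → ℝ)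
    (ma : ∀ j, at' j + ∑ i, a i x * pd i (a j) x
      = - pd j p x + ν * ∑ i, pd i (pd i (a j)) x + f j)
    (mb : ∀ j, bt j + ∑ i, b i x * pd i (b j) x
      = - pd j q x + ν * ∑ i, pd i (pd i (b j)) x + f j)
    (da : ∑ i, pd i (a i) x = 0) (db : ∑ i, pd i (b i) x = 0) :
    ∑ j, (a j x - b j x) * (at' j - bt j) =
      ∑ i, pd i (flux ν a (fun j y => a j y - b j y) (fun y => p y - q y) i) x
      - ν * ∑ i, ∑ j, (pd i (a j) x - pd i (b j) x)^2
      - ∑ i, ∑ j, (a i x - b i x) * (a j x - b j x) * pd i (b j) x := by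
  have ha' : ∀ i x, DifferentiableAt ℝ (a i) x :=
    fun i x => ((ha i).differentiable (by norm_num)).differentiableAt
  have hb' : ∀ i x, DifferentiableAt ℝ (b i) x :=
    fun i x => ((hb i).differentiable (by norm_num)).differentiableAt
  have hp' : DifferentiableAt ℝ p x := (hp.differentiable (by norm_num)).differentiableAt
  have hq' : DifferentiableAt ℝ q x := (hq.differentiable (by norm_num)).differentiableAt
  have hpa : ∀ i j, DifferentiableAt ℝ (pd i (a j)) x := fun i j =>
    ((contDiff_pd i (ha j)).differentiable (by norm_num)).differentiableAt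
  have hpb : ∀ i j, DifferentiableAt ℝ (pd i (b j)) x := fun i j =>
    ((contDiff_pd i (hb j)).differentiable (by norm_num)).differentiableAt
  have h1 : ∀ i j y, pd i (fun z => a j z - b j z) y = pd i (a j) y - pd i (b j) y :=
    fun i j y => pd_sub i (ha' j y) (hb' j y)
  have h1' : ∀ i j, pd i (fun z => a j z - b j z) = fun y => pd i (a j) y - pd i (b j) y :=
    fun i j => funext (h1 i j)
  have h2 : ∀ i j, pd i (pd i (fun z => a j z - b j z)) x
      = pd i (pd i (a j)) x - pd i (pd i (b j)) x := by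
    intro i j
    rw [h1']
    exact pd_sub i (hpa i j) (hpb i j)
  have h3 : ∀ i, pd i (fun z => p z - q z) x = pd i p x - pd i q x :=
    fun i => pd_sub i hp' hq'
  have h4 : ∀ i, pd i (flux ν a (fun j y => a j y - b j y) (fun y => p y - q y) i) x = _ :=
    fun i => pd_flux ν a (fun j y => a j y - b j y) (fun y => p y - q y) i ha
      (fun i => (ha i).sub (hb i)) (hp.sub hq) x
  simp only [h4, h1, h2, h3]
  simp only [Fin.sum_univ_three] at ma mb da db ⊢
  have ma0 := ma 0
  have ma1 := ma 1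
  have ma2 := ma 2
  have mb0 := mb 0
  have mb1 := mb 1
  have mb2 := mb 2
  generalize pd 0 (pd 0 (a 0)) x = A000 at *
  generalize pd 0 (pd 0 (a 1)) x = A001 at *
  generalize pd 0 (pd 0 (a 2)) x = A002 at *
  generalize pd 1 (pd 1 (a 0)) x = A110 at *
  generalize pd 1 (pd 1 (a 1)) x = A111 at *
  generalize pd 1 (pd 1 (a 2)) x = A112 at *
  generalize pd 2 (pd 2 (a 0)) x = A220 at *
  generalize pd 2 (pd 2 (a 1)) x = A221 at *
  generalize pd 2 (pd 2 (a 2)) x = A222 at *
  generalize pd 0 (pd 0 (b 0)) x = B000 at *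
  generalize pd 0 (pd 0 (b 1)) x = B001 at *
  generalize pd 0 (pd 0 (b 2)) x = B002 at *
  generalize pd 1 (pd 1 (b 0)) x = B110 at *
  generalize pd 1 (pd 1 (b 1)) x = B111 at *
  generalize pd 1 (pd 1 (b 2)) x = B112 at *
  generalize pd 2 (pd 2 (b 0)) x = B220 at *
  generalize pd 2 (pd 2 (b 1)) x = B221 at *
  generalize pd 2 (pd 2 (b 2)) x = B222 at *
  generalize pd 0 (a 0) x = a00 at *
  generalize pd 0 (a 1) x = a01 at *
  generalize pd 0 (a 2) x = a02 at *
  generalize pd 1 (a 0) x = a10 at *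
  generalize pd 1 (a 1) x = a11 at *
  generalize pd 1 (a 2) x = a12 at *
  generalize pd 2 (a 0) x = a20 at *
  generalize pd 2 (a 1) x = a21 at *
  generalize pd 2 (a 2) x = a22 at *
  generalize pd 0 (b 0) x = b00 at *
  generalize pd 0 (b 1) x = b01 at *
  generalize pd 0 (b 2) x = b02 at *
  generalize pd 1 (b 0) x = b10 at *
  generalize pd 1 (b 1) x = b11 at *
  generalize pd 1 (b 2) x = b12 at *
  generalize pd 2 (b 0) x = b20 at *
  generalize pd 2 (b 1) x = b21 at *
  generalize pd 2 (b 2) x = b22 at *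
  generalize pd 0 p x = p0 at *
  generalize pd 1 p x = p1 at *
  generalize pd 2 p x = p2 at *
  generalize pd 0 q x = q0 at *
  generalize pd 1 q x = q1 at *
  generalize pd 2 q x = q2 at *
  generalize a 0 x = x0 at *
  generalize a 1 x = x1 at *
  generalize a 2 x = x2 at *
  generalize b 0 x = y0 at *
  generalize b 1 x = y1 at *
  generalize b 2 x = y2 at *
  linear_combination (x0 - y0) * (ma0 - mb0) + (x1 - y1) * (ma1 - mb1) + (x2 - y2) * (ma2 - mb2)
    + (1/2) * ((x0-y0)^2 + (x1-y1)^2+(x2-y2)^2) * da + (p x - q x) * (da - db)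

/-- The integral over a period cell of the divergence of a periodic field vanishes. -/
theorem integral_div_periodic (G : Fin 3 → E3 → ℝ)
    (hG : ∀ i, ContDiff ℝ 1 (G i))
    (hper : ∀ i (x : E3) (k : Fin 3 → ℤ), G i (fun j => x j + k j) = G i x) :
    ∫ x in Icc (0 : E3) 1, ∑ i, pd i (G i) x = 0 := by
  have h := integral_divergence_of_hasFDerivAt_off_countable' (n := 2) (E := ℝ)
    (0 : E3) (1 : E3) (by intro i; simp) G (fun i x => fderiv ℝ (G i) x) ∅ countable_empty
    (fun i => (hG i).continuous.continuousOn)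
    (fun x _ i => ((hG i).differentiable (by norm_num)).differentiableAt.hasFDerivAt)
    (by
      apply Continuous.integrableOn_Icc
      apply continuous_finsetSum
      intro i _
      exact ((hG i).continuous_fderiv (by norm_num)).clm_apply continuous_const)
  have h2 : ∫ x in Icc (0 : E3) 1, ∑ i, pd i (G i) x =
      ∫ x in Icc (0 : E3) 1, ∑ i, fderiv ℝ (G i) x (Pi.single i 1) := rfl
  rw [h2, h]
  apply Finset.sum_eq_zero
  intro i _
  rw [sub_eq_zero]
  congr 1
  ext y
  have := hper i (i.insertNth ((0 : E3) i) y) (Pi.single i 1)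
  rw [← this]
  congr 1
  ext j
  refine Fin.succAboveCases i ?_ ?_ j
  · simp
  · intro j'
    simp


/-- Gronwall argument: a nonnegative energy starting at zero stays zero. -/
theorem gronwall_zero {T C : ℝ} (E E' : ℝ → ℝ) (hc : ContinuousOn E (Icc 0 T)) (h0 : E 0 = 0)
    (hpos : ∀ t ∈ Icc 0 T, 0 ≤ E t) (hd : ∀ t ∈ Ioo 0 T, HasDerivAt E (E' t) t)
    (hle : ∀ t ∈ Ioo 0 T, E' t ≤ C * E t) : ∀ t ∈ Icc 0 T, E t = 0 := by
  intro t ht
  have hder : ∀ s ∈ Ioo 0 T, HasDerivAt (fun s => Real.exp (-C * s) * E s)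
      (Real.exp (-C * s) * (-C) * E s + Real.exp (-C * s) * E' s) s := by
    intro s hs
    have h1 : HasDerivAt (fun s => Real.exp (-C * s)) (Real.exp (-C * s) * (-C)) s := by
      have := ((hasDerivAt_id s).const_mul (-C)).exp
      simpa using this
    exact h1.fun_mul (hd s hs)
  have hanti : AntitoneOn (fun s => Real.exp (-C * s) * E s) (Icc 0 T) := by
    apply antitoneOn_of_deriv_nonpos (convex_Icc 0 T)
    · apply ContinuousOn.mul _ hc
      fun_prop
    · rw [interior_Icc]
      intro s hs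
      exact (hder s hs).differentiableAt.differentiableWithinAt
    · rw [interior_Icc]
      intro s hs
      rw [(hder s hs).deriv]
      have h1 := hle s hs
      have h2 := Real.exp_pos (-C * s)
      nlinarith
  have hT : (0 : ℝ) ≤ T := le_trans ht.1 ht.2
  have h1 := hanti (left_mem_Icc.2 hT) ht ht.1
  simp only [h0, mul_zero] at h1
  have h2 := Real.exp_pos (-C * t)
  have h3 := hpos t ht
  nlinarith

/-- The period cell. -/
abbrev cell : Set E3 := Icc (0 : E3) 1

theorem continuousOn_cellIntegral {T : ℝ} (F : ℝ → E3 → ℝ)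
    (hF : ContinuousOn (fun z : ℝ × E3 => F z.1 z.2) (Icc 0 T ×ˢ univ)) :
    ContinuousOn (fun t => ∫ x in cell, F t x) (Icc 0 T) := by
  rw [continuousOn_iff_continuous_domRestrict]
  have h := continuous_parametric_integral_of_continuous (X := Icc (0:ℝ) T) (Y := E3)
    (μ := volume) (f := fun t x => F t x) (s := cell) ?_ isCompact_Icc
  · exact h
  · have : Continuous (fun z : Icc (0:ℝ) T × E3 => ((z.1 : ℝ), z.2)) := by fun_prop
    exact hF.comp_continuous this (fun z => ⟨z.1.2, mem_univ _⟩)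

theorem hasDerivAt_cellIntegral {T : ℝ} (F F' : ℝ → E3 → ℝ)
    (hF : ContinuousOn (fun z : ℝ × E3 => F z.1 z.2) (Icc 0 T ×ˢ univ))
    (hF' : ContinuousOn (fun z : ℝ × E3 => F' z.1 z.2) (Icc 0 T ×ˢ univ))
    (hd : ∀ t ∈ Ioo 0 T, ∀ x, HasDerivAt (fun s => F s x) (F' t x) t) :
    ∀ t ∈ Ioo 0 T, HasDerivAt (fun t => ∫ x in cell, F t x) (∫ x in cell, F' t x) t := by
  intro t ht
  have hsec : ∀ (H : ℝ → E3 → ℝ),
      ContinuousOn (fun z : ℝ × E3 => H z.1 z.2) (Icc 0 T ×ˢ univ) →
      ∀ s ∈ Icc 0 T, Continuous (H s) := by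
    intro H hH s hs
    have : Continuous (fun x : E3 => ((s, x) : ℝ × E3)) := by fun_prop
    exact hH.comp_continuous this (fun x => ⟨hs, mem_univ _⟩)
  have hcomp : IsCompact (Icc (0:ℝ) T ×ˢ cell) := isCompact_Icc.prod isCompact_Icc
  obtain ⟨K, hK⟩ := hcomp.exists_bound_of_continuousOn
    (hF'.mono (prod_mono_right (subset_univ cell)))
  have hIoo : Ioo 0 T ∈ nhds t := isOpen_Ioo.mem_nhds ht
  have := hasDerivAt_integral_of_dominated_loc_of_deriv_le (μ := volume.restrict cell)
    (F := F) (F' := F') (x₀ := t) (s := Ioo 0 T) (bound := fun _ => K) hIoo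
    (by
      filter_upwards [hIoo] with s hs
      exact (hsec F hF s (Ioo_subset_Icc_self hs)).aestronglyMeasurable)
    ((hsec F hF t (Ioo_subset_Icc_self ht)).integrableOn_Icc)
    ((hsec F' hF' t (Ioo_subset_Icc_self ht)).aestronglyMeasurable)
    (by
      filter_upwards [ae_restrict_mem measurableSet_Icc] with x hx s hs
      exact hK (s, x) ⟨Ioo_subset_Icc_self hs, hx⟩)
    (by
      exact continuous_const.integrableOn_Icc)
    (by
      filter_upwards with x s hs
      exact hd s hs x)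
  exact this.2


/-- `(u, p)` is a classical solution of the forced Navier-Stokes system on `[0,T]` started from
rest, written for periodic fields on the covering space. -/
structure ClassicalOn (ν : ℝ) (f : ℝ → E3 → E3) (T : ℝ) (u : ℝ → E3 → E3) (p : ℝ → E3 → ℝ) :
    Prop where
  per_u : ∀ t ∈ Icc 0 T, ∀ (x : E3) (k : Fin 3 → ℤ), u t (fun i => x i + k i) = u t x
  per_p : ∀ t ∈ Icc 0 T, ∀ (x : E3) (k : Fin 3 → ℤ), p t (fun i => x i + k i) = p t x
  smooth_u : ∀ t ∈ Icc 0 T, ContDiff ℝ 2 (u t)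
  smooth_p : ∀ t ∈ Icc 0 T, ContDiff ℝ 1 (p t)
  diff_t : ∀ t ∈ Icc 0 T, ∀ x, DifferentiableWithinAt ℝ (fun s => u s x) (Icc 0 T) t
  cont_u : ContinuousOn (fun z : ℝ × E3 => u z.1 z.2) (Icc 0 T ×ˢ univ)
  cont_ut : ContinuousOn (fun z : ℝ × E3 => derivWithin (fun s => u s z.2) (Icc 0 T) z.1)
    (Icc 0 T ×ˢ univ)
  cont_Du : ContinuousOn (fun z : ℝ × E3 => fderiv ℝ (u z.1) z.2) (Icc 0 T ×ˢ univ)
  momentum : ∀ t ∈ Icc 0 T, ∀ x (j : Fin 3),
    derivWithin (fun s => u s x) (Icc 0 T) t j + ∑ i, u t x i * pd i (fun y => u t y j) x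
      = - pd j (p t) x + ν * ∑ i, pd i (pd i (fun y => u t y j)) x + f t x j
  div_free : ∀ t ∈ Icc 0 T, ∀ x, ∑ i, pd i (fun y => u t y i) x = 0
  init : ∀ x, u 0 x = 0
  mean_zero : ∀ t ∈ Icc 0 T, ∫ x in cell, p t x = 0

theorem pd_comp (i j : Fin 3) {g : E3 → E3} {x : E3} (hg : DifferentiableAt ℝ g x) :
    pd i (fun y => g y j) x = fderiv ℝ g x (Pi.single i 1) j := by
  unfold pd
  have h := (hasFDerivAt_pi'.1 hg.hasFDerivAt j).fderiv
  rw [h]
  rfl

/-- Every point has a representative in the cell. -/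
theorem exists_cell (x : E3) : ∃ y ∈ cell, ∃ k : Fin 3 → ℤ, x = fun i => y i + k i := by
  refine ⟨fun i => Int.fract (x i), ⟨fun i => Int.fract_nonneg _, fun i => (Int.fract_lt_one _).le⟩,
    fun i => ⌊x i⌋, ?_⟩
  ext i
  exact (Int.fract_add_floor (x i)).symm

theorem cell_subset_closure : cell ⊆ closure (interior cell) := by
  have h : interior cell = Set.pi univ (fun _ : Fin 3 => Ioo (0:ℝ) 1) := by
    rw [cell, ← pi_univ_Icc, interior_pi_set finite_univ]
    simp
  rw [h, closure_pi_set]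
  intro x hx i _
  rw [closure_Ioo (by norm_num)]
  exact ⟨hx.1 i, hx.2 i⟩

section Uniqueness

variable {ν T : ℝ} {f u v : ℝ → E3 → E3} {p q : ℝ → E3 → ℝ}

theorem ClassicalOn.cont_comp (hu : ClassicalOn ν f T u p) (j : Fin 3) :
    ContinuousOn (fun z : ℝ × E3 => u z.1 z.2 j) (Icc 0 T ×ˢ univ) :=
  (continuous_apply j).comp_continuousOn hu.cont_u

theorem ClassicalOn.cont_ut_comp (hu : ClassicalOn ν f T u p) (j : Fin 3) :
    ContinuousOn (fun z : ℝ × E3 => derivWithin (fun s => u s z.2) (Icc 0 T) z.1 j)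
      (Icc 0 T ×ˢ univ) :=
  (continuous_apply j).comp_continuousOn hu.cont_ut

theorem ClassicalOn.contDiff_comp (hu : ClassicalOn ν f T u p) {t : ℝ} (ht : t ∈ Icc 0 T)
    (j : Fin 3) : ContDiff ℝ 2 (fun y => u t y j) :=
  contDiff_pi.1 (hu.smooth_u t ht) j

theorem ClassicalOn.velocity_unique (hν : 0 ≤ ν) (hu : ClassicalOn ν f T u p)
    (hv : ClassicalOn ν f T v q) : ∀ t ∈ Icc 0 T, ∀ x, u t x = v t x := by
  -- the energy
  set F : ℝ → E3 → ℝ := fun t x => ∑ j, (u t x j - v t x j) ^ 2 with hFdef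
  set F' : ℝ → E3 → ℝ := fun t x => ∑ j, 2 * ((u t x j - v t x j) *
    (derivWithin (fun s => u s x) (Icc 0 T) t j - derivWithin (fun s => v s x) (Icc 0 T) t j))
    with hF'def
  have hFc : ContinuousOn (fun z : ℝ × E3 => F z.1 z.2) (Icc 0 T ×ˢ univ) := by
    apply continuousOn_finsetSum
    intro j _
    exact ((hu.cont_comp j).sub (hv.cont_comp j)).pow 2
  have hFc' : ContinuousOn (fun z : ℝ × E3 => F' z.1 z.2) (Icc 0 T ×ˢ univ) := by
    apply continuousOn_finsetSum
    intro j _
    exact continuousOn_const.mul (((hu.cont_comp j).sub (hv.cont_comp j)).mul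
      ((hu.cont_ut_comp j).sub (hv.cont_ut_comp j)))
  have hder : ∀ t ∈ Ioo 0 T, ∀ x, HasDerivAt (fun s => F s x) (F' t x) t := by
    intro t ht x
    have hI : Icc 0 T ∈ nhds t := Icc_mem_nhds ht.1 ht.2
    have h1 : HasDerivAt (fun s => u s x) (derivWithin (fun s => u s x) (Icc 0 T) t) t :=
      (hu.diff_t t (Ioo_subset_Icc_self ht) x).hasDerivWithinAt.hasDerivAt hI
    have h2 : HasDerivAt (fun s => v s x) (derivWithin (fun s => v s x) (Icc 0 T) t) t :=
      (hv.diff_t t (Ioo_subset_Icc_self ht) x).hasDerivWithinAt.hasDerivAt hI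
    have h1j := hasDerivAt_pi.1 h1
    have h2j := hasDerivAt_pi.1 h2
    apply HasDerivAt.fun_sum
    intro j _
    have := ((h1j j).fun_sub (h2j j)).fun_pow 2
    refine this.congr_deriv ?_
    simp
    ring
  -- bound on the gradient of v
  have hcomp : IsCompact (Icc (0:ℝ) T ×ˢ cell) := isCompact_Icc.prod isCompact_Icc
  obtain ⟨K, hK⟩ := hcomp.exists_bound_of_continuousOn
    (hv.cont_Du.mono (prod_mono_right (subset_univ cell)))
  have hKpd : ∀ t ∈ Icc 0 T, ∀ x ∈ cell, ∀ i j, |pd i (fun y => v t y j) x| ≤ K := by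
    intro t ht x hx i j
    rw [pd_comp i j ((hv.smooth_u t ht).differentiable (by norm_num)).differentiableAt]
    have h1 := hK (t, x) ⟨ht, hx⟩
    simp only at h1
    calc |fderiv ℝ (v t) x (Pi.single i 1) j| ≤ ‖fderiv ℝ (v t) x (Pi.single i 1)‖ := by
          rw [← Real.norm_eq_abs]
          exact norm_le_pi_norm (fderiv ℝ (v t) x (Pi.single i 1)) j
      _ ≤ ‖fderiv ℝ (v t) x‖ * ‖(Pi.single i 1 : E3)‖ := ContinuousLinearMap.le_opNorm _ _
      _ ≤ ‖fderiv ℝ (v t) x‖ * 1 := by
          gcongr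
          rw [Pi.norm_single]
          simp
      _ ≤ K := by rw [mul_one]; exact h1
  -- differential inequality
  have hineq : ∀ t ∈ Icc 0 T, ∫ x in cell, F' t x ≤ (6 * K) * ∫ x in cell, F t x := by
    intro t ht
    have hsec : ∀ (H : ℝ → E3 → ℝ),
        ContinuousOn (fun z : ℝ × E3 => H z.1 z.2) (Icc 0 T ×ˢ univ) →
        Continuous (H t) := by
      intro H hH
      have : Continuous (fun x : E3 => ((t, x) : ℝ × E3)) := by fun_prop
      exact hH.comp_continuous this (fun x => ⟨ht, mem_univ _⟩)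
    set G : Fin 3 → E3 → ℝ := fun i => flux ν (fun j y => u t y j)
      (fun j y => u t y j - v t y j) (fun y => p t y - q t y) i with hG
    have hGc : ∀ i, ContDiff ℝ 1 (G i) := fun i =>
      contDiff_flux ν _ _ _ i (fun j => hu.contDiff_comp ht j)
        (fun j => (hu.contDiff_comp ht j).sub (hv.contDiff_comp ht j))
        ((hu.smooth_p t ht).sub (hv.smooth_p t ht))
    have hpdper : ∀ (g : E3 → ℝ), (∀ (x : E3) (k : Fin 3 → ℤ), g (fun i => x i + k i) = g x) →
        ∀ i (x : E3) (k : Fin 3 → ℤ), pd i g (fun i => x i + k i) = pd i g x := by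
      intro g hg i x k
      unfold pd
      have h1 : (fun y : E3 => g (y + fun i => (k i : ℝ))) = g := by
        ext y
        exact hg y k
      have h2 := fderiv_comp_add_right (𝕜 := ℝ) (f := g) (x := x) (fun i => (k i : ℝ))
      rw [h1] at h2
      have h3 : (x + fun i => (k i : ℝ)) = fun i => x i + k i := rfl
      rw [← h3, ← h2]
    have hGper : ∀ i (x : E3) (k : Fin 3 → ℤ), G i (fun j => x j + k j) = G i x := by
      intro i x k
      have hw : ∀ j, ∀ (x : E3) (k : Fin 3 → ℤ),
          u t (fun i => x i + k i) j - v t (fun i => x i + k i) j = u t x j - v t x j := by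
        intro j x k
        rw [hu.per_u t ht, hv.per_u t ht]
      have hpw := fun j => hpdper (fun y => u t y j - v t y j) (hw j) i x k
      simp only [hG, flux]
      rw [hpw 0, hpw 1, hpw 2]
      simp only [hu.per_u t ht, hv.per_u t ht, hu.per_p t ht, hv.per_p t ht]
    have hdiv := integral_div_periodic G hGc hGper
    have hpoint : ∀ x ∈ cell, F' t x ≤ 2 * ∑ i, pd i (G i) x + (6 * K) * F t x := by
      intro x hx
      have hen := energy_pointwise ν (fun j y => u t y j) (fun j y => v t y j) (p t) (q t)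
        (fun j => hu.contDiff_comp ht j) (fun j => hv.contDiff_comp ht j)
        (hu.smooth_p t ht) (hv.smooth_p t ht) x
        (derivWithin (fun s => u s x) (Icc 0 T) t) (derivWithin (fun s => v s x) (Icc 0 T) t)
        (f t x) (hu.momentum t ht x) (hv.momentum t ht x) (hu.div_free t ht x)
        (hv.div_free t ht x)
      have e1 : F' t x = 2 * ∑ j, (u t x j - v t x j) *
          (derivWithin (fun s => u s x) (Icc 0 T) t j
            - derivWithin (fun s => v s x) (Icc 0 T) t j) := by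
        rw [Finset.mul_sum]
      rw [e1, hen]
      have hnn : 0 ≤ ν * ∑ i, ∑ j, (pd i (fun y => u t y j) x - pd i (fun y => v t y j) x)^2 := by
        apply mul_nonneg hν
        exact Finset.sum_nonneg (fun i _ => Finset.sum_nonneg (fun j _ => sq_nonneg _))
      have hb : -(∑ i, ∑ j, (u t x i - v t x i) * (u t x j - v t x j)
          * pd i (fun y => v t y j) x) ≤ 3 * K * F t x := by
        have hterm : ∀ i j, -((u t x i - v t x i) * (u t x j - v t x j)
          * pd i (fun y => v t y j) x) ≤ K * (((u t x i - v t x i)^2 + (u t x j - v t x j)^2)/2) := by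
          intro i j
          have h1 := hKpd t ht x hx i j
          have h2 := abs_le.1 h1
          set A := u t x i - v t x i
          set B := u t x j - v t x j
          set D := pd i (fun y => v t y j) x
          have hK0 : 0 ≤ K := le_trans (abs_nonneg _) h1
          nlinarith [mul_nonneg (sub_nonneg.2 h2.1) (sq_nonneg (A - B)),
            mul_nonneg (sub_nonneg.2 h2.1) (sq_nonneg (A + B)),
            mul_nonneg (sub_nonneg.2 h2.2) (sq_nonneg (A - B)),
            mul_nonneg (sub_nonneg.2 h2.2) (sq_nonneg (A + B))]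
        have hs : -(∑ i, ∑ j, (u t x i - v t x i) * (u t x j - v t x j)
          * pd i (fun y => v t y j) x) = ∑ i, ∑ j, -((u t x i - v t x i) * (u t x j - v t x j)
          * pd i (fun y => v t y j) x) := by
          simp only [Finset.sum_neg_distrib]
        rw [hs]
        refine (Finset.sum_le_sum (fun i _ => Finset.sum_le_sum (fun j _ => hterm i j))).trans ?_
        simp only [hFdef, Fin.sum_univ_three]
        apply le_of_eq
        ring
      linarith
    have hint1 : IntegrableOn (fun x => F' t x) cell :=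
      (hsec F' hFc').integrableOn_Icc
    have hint2 : IntegrableOn (fun x => 2 * ∑ i, pd i (G i) x) cell := by
      apply Continuous.integrableOn_Icc
      apply continuous_const.mul
      apply continuous_finsetSum
      intro i _
      exact ((hGc i).continuous_fderiv (by norm_num)).clm_apply continuous_const
    have hint3 : IntegrableOn (fun x => (6 * K) * F t x) cell :=
      (continuous_const.mul (hsec F hFc)).integrableOn_Icc
    calc ∫ x in cell, F' t x ≤ ∫ x in cell, (2 * ∑ i, pd i (G i) x + (6 * K) * F t x) :=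
          setIntegral_mono_on hint1 (hint2.add hint3) measurableSet_Icc hpoint
      _ = (∫ x in cell, 2 * ∑ i, pd i (G i) x) + ∫ x in cell, (6 * K) * F t x :=
          integral_add hint2 hint3
      _ = (6 * K) * ∫ x in cell, F t x := by
          rw [integral_const_mul, hdiv, integral_const_mul]
          ring
  have hE := gronwall_zero (C := 6 * K) (fun t => ∫ x in cell, F t x) (fun t => ∫ x in cell, F' t x)
    (continuousOn_cellIntegral F hFc)
    (by
      have : ∀ x, F 0 x = 0 := by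
        intro x
        simp only [hFdef, hu.init, hv.init]
        simp
      simp [this])
    (fun t _ => setIntegral_nonneg measurableSet_Icc
      (fun x _ => Finset.sum_nonneg (fun j _ => sq_nonneg _)))
    (hasDerivAt_cellIntegral F F' hFc hFc' hder)
    (fun t ht => hineq t (Ioo_subset_Icc_self ht))
  intro t ht
  have hcF : Continuous (F t) := by
    have : Continuous (fun x : E3 => ((t, x) : ℝ × E3)) := by fun_prop
    exact hFc.comp_continuous this (fun x => ⟨ht, mem_univ _⟩)
  have hae : F t =ᵐ[volume.restrict cell] 0 := by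
    have := (setIntegral_eq_zero_iff_of_nonneg_ae (μ := volume) (s := cell) (f := F t)
      (Filter.Eventually.of_forall (fun x => Finset.sum_nonneg (fun j _ => sq_nonneg _)))
      hcF.integrableOn_Icc).1 (hE t ht)
    exact this
  have hzero := Measure.eqOn_of_ae_eq hae hcF.continuousOn continuousOn_const cell_subset_closure
  intro x
  obtain ⟨y, hy, k, rfl⟩ := exists_cell x
  rw [hu.per_u t ht, hv.per_u t ht]
  have h1 : F t y = 0 := hzero hy
  ext j
  have h2 := (Finset.sum_eq_zero_iff_of_nonneg (fun j _ => sq_nonneg (u t y j - v t y j))).1 h1 j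
    (Finset.mem_univ j)
  have h3 : u t y j - v t y j = 0 := by
    simpa using h2
  linarith

/-- Uniqueness of classical solutions, velocity and pressure. -/
theorem ClassicalOn.unique (hν : 0 ≤ ν) (hu : ClassicalOn ν f T u p)
    (hv : ClassicalOn ν f T v q) : ∀ t ∈ Icc 0 T, ∀ x, u t x = v t x ∧ p t x = q t x := by
  have hvel := hu.velocity_unique hν hv
  intro t ht x
  refine ⟨hvel t ht x, ?_⟩
  have huv : ∀ s ∈ Icc 0 T, u s = v s := fun s hs => funext (hvel s hs)
  have hder : ∀ x, derivWithin (fun s => u s x) (Icc 0 T) t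
      = derivWithin (fun s => v s x) (Icc 0 T) t := by
    intro x
    apply derivWithin_congr
    · intro s hs
      exact hvel s hs x
    · exact hvel t ht x
  have hpd : ∀ x j, pd j (p t) x = pd j (q t) x := by
    intro x j
    have h1 := hu.momentum t ht x j
    have h2 := hv.momentum t ht x j
    rw [hder, huv t ht] at h1
    linarith
  have hdp : ∀ x, DifferentiableAt ℝ (p t) x :=
    fun x => ((hu.smooth_p t ht).differentiable (by norm_num)).differentiableAt
  have hdq : ∀ x, DifferentiableAt ℝ (q t) x :=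
    fun x => ((hv.smooth_p t ht).differentiable (by norm_num)).differentiableAt
  have hfd : ∀ x, fderiv ℝ (fun y => p t y - q t y) x = 0 := by
    intro x
    rw [fderiv_fun_sub (hdp x) (hdq x), sub_eq_zero]
    ext y
    have hy : y = ∑ i, y i • (Pi.single i 1 : E3) := by
      ext j
      simp [Finset.sum_apply, Pi.single_apply]
    rw [hy, map_sum, map_sum]
    apply Finset.sum_congr rfl
    intro i _
    rw [map_smul, map_smul]
    congr 1
    exact hpd x i
  have hconst : ∀ y, p t y - q t y = p t x - q t x := fun y =>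
    is_const_of_fderiv_eq_zero (f := fun y => p t y - q t y)
      (fun y => ((hdp y).fun_sub (hdq y))) hfd y x
  have hint : ∫ y in cell, (p t y - q t y) = 0 := by
    rw [integral_sub ((hu.smooth_p t ht).continuous.integrableOn_Icc)
      ((hv.smooth_p t ht).continuous.integrableOn_Icc), hu.mean_zero t ht, hv.mean_zero t ht]
    simp
  simp only [hconst] at hint
  rw [setIntegral_const] at hint
  have hvol : (volume : Measure E3).real cell = 1 := by
    rw [Measure.real, cell, Real.volume_Icc_pi]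
    simp
  rw [hvol] at hint
  simp at hint
  linarith

end Uniqueness

theorem proj_add_int (x : E3) (k : Fin 3 → ℤ) : proj (fun i => x i + k i) = proj x := by
  ext i
  simp [proj]

theorem proj_surjective : Function.Surjective proj := by
  intro y
  have h : ∀ i, ∃ r : ℝ, (r : UnitAddCircle) = y i := fun i => QuotientAddGroup.mk_surjective (y i)
  choose r hr using h
  exact ⟨r, funext hr⟩

/-- The full derivative of a differentiable function in terms of its partial derivatives. -/
theorem fderiv_eq_sum_pd {g : E3 → ℝ} (x : E3) :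
    fderiv ℝ g x = ∑ j : Fin 3, pd j g x • (ContinuousLinearMap.proj (R := ℝ)
      (φ := fun _ : Fin 3 => ℝ) j) := by
  ext v
  have hv : v = ∑ j : Fin 3, v j • (Pi.single j (1:ℝ) : E3) := by
    ext i
    simp [Finset.sum_apply, Pi.single_apply]
  conv_lhs => rw [hv]
  rw [map_sum]
  simp only [map_smul, smul_eq_mul, sum_apply, smul_apply,
    ContinuousLinearMap.proj_apply]
  refine Finset.sum_congr rfl fun j _ => ?_
  rw [mul_comm]
  rfl

theorem IsClassicalSolution.classicalOn {ν T : ℝ} (hT : 0 < T) {f u : ℝ → T3 → E3}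
    {p : ℝ → T3 → ℝ} (h : IsClassicalSolution ν T f u p) :
    ClassicalOn ν (fun t x => f t (proj x)) T (fun t x => u t (proj x))
      (fun t x => p t (proj x)) where
  per_u := fun t _ x k => by simp only [proj_add_int]
  per_p := fun t _ x k => by simp only [proj_add_int]
  smooth_u := fun t ht => contDiff_pi.2 fun i => h.u_C2 t ht i
  smooth_p := fun t ht => h.p_C1 t ht
  diff_t := fun t ht x => differentiableWithinAt_pi.2 fun i => h.u_diff t ht (proj x) i
  cont_u := continuousOn_pi.2 fun i => h.u_cont i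
  cont_ut := by
    have h1 : ContinuousOn (fun z : ℝ × E3 => fun i : Fin 3 =>
        derivWithin (fun s => u s (proj z.2) i) (Icc 0 T) z.1) (Icc 0 T ×ˢ univ) :=
      continuousOn_pi.2 fun i => h.ut_cont i
    refine h1.congr ?_
    rintro ⟨t, x⟩ ⟨ht, _⟩
    funext i
    have hd : DifferentiableWithinAt ℝ (fun s => u s (proj x)) (Icc 0 T) t :=
      differentiableWithinAt_pi.2 fun i => h.u_diff t ht (proj x) i
    exact ((hasDerivWithinAt_pi.1 hd.hasDerivWithinAt i).derivWithin
      (uniqueDiffOn_Icc hT t ht)).symm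
  cont_Du := by
    have h1 : ContinuousOn (fun z : ℝ × E3 => ∑ i : Fin 3, ∑ j : Fin 3,
        pd j (fun x => u z.1 (proj x) i) z.2 •
          ((ContinuousLinearMap.single ℝ (fun _ : Fin 3 => ℝ) i).comp
            (ContinuousLinearMap.proj (R := ℝ) (φ := fun _ : Fin 3 => ℝ) j)))
        (Icc 0 T ×ˢ univ) := by
      refine continuousOn_finsetSum _ fun i _ => continuousOn_finsetSum _ fun j _ => ?_
      exact (h.Du_cont i j).smul continuousOn_const
    refine h1.congr ?_
    rintro ⟨t, x⟩ ⟨ht, _⟩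
    have hd : ∀ i, DifferentiableAt ℝ (fun y : E3 => u t (proj y) i) x := fun i =>
      (ContDiff.differentiable (h.u_C2 t ht i) (by norm_num)) x
    have h3 := (hasFDerivAt_pi.2 fun i => (hd i).hasFDerivAt).fderiv
    simp only [] at h3 ⊢
    rw [h3]
    ext v k
    simp only [ContinuousLinearMap.coe_pi', fderiv_eq_sum_pd, sum_apply,
      smul_apply, ContinuousLinearMap.comp_apply,
      ContinuousLinearMap.proj_apply, ContinuousLinearMap.single_apply, smul_eq_mul,
      Finset.sum_apply, Pi.smul_apply, Pi.single_apply]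
    simp
  momentum := fun t ht x j => by
    have hm := h.momentum t ht x j
    have hd0 : DifferentiableWithinAt ℝ (fun s => u s (proj x)) (Icc 0 T) t :=
      differentiableWithinAt_pi.2 fun i => h.u_diff t ht (proj x) i
    have hd := hd0.hasDerivWithinAt
    have h2 := (hasDerivWithinAt_pi.1 hd j).derivWithin (uniqueDiffOn_Icc hT t ht)
    rw [h2] at hm
    exact hm
  div_free := h.div_free
  init := fun x => funext fun i => h.initial (proj x) i
  mean_zero := h.mean_zero

/-- Uniqueness of classical solutions for fields on the torus. -/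
theorem IsClassicalSolution.unique {ν T : ℝ} (hν : 0 ≤ ν) (hT : 0 < T) {f u v : ℝ → T3 → E3}
    {p q : ℝ → T3 → ℝ} (hu : IsClassicalSolution ν T f u p)
    (hv : IsClassicalSolution ν T f v q) : ∀ t ∈ Icc 0 T, v t = u t ∧ q t = p t := by
  intro t ht
  have h := (hu.classicalOn hT).unique hν (hv.classicalOn hT) t ht
  refine ⟨funext fun y => ?_, funext fun y => ?_⟩
  · obtain ⟨x, rfl⟩ := proj_surjective y
    exact (h x).1.symm
  · obtain ⟨x, rfl⟩ := proj_surjective y
    exact (h x).2.symm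

end Vale.Agent.P113
end

section

namespace Vale.Agent.P113

open scoped ContDiff Topology
open Set Filter

/-- The question. -/
def Question (ν : ℝ) : Prop :=
  ∃ (a : T3) (O : Set T3) (compile : Machine × List ℕ → Nat.Partrec.Code)
    (f : Machine × List ℕ → ℝ → T3 → E3),
    IsOpen O ∧ IsForceCompiler compile f ∧
    ∀ (M : Machine) (w : List ℕ), ∃ (u : ℝ → T3 → E3) (p : ℝ → T3 → ℝ),
      IsGlobalSmoothSolution ν (f (M, w)) u p ∧
      (∀ T : ℝ, 0 < T → ∀ v q, IsClassicalSolution ν T (f (M, w)) v q →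
        ∀ t ∈ Set.Icc 0 T, v t = u t ∧ q t = p t) ∧
      (∃ X, IsTrajectory u a X) ∧
      ∀ X, IsTrajectory u a X → ((∃ t : ℝ, 0 ≤ t ∧ proj (X t) ∈ O) ↔ HaltsOn M w)

theorem bper_periodic : Function.Periodic bper 1 := per_periodic bump

theorem deriv_bump_of_one_le {t : ℝ} (h : 1 ≤ t) : deriv bump t = 0 := by
  have := (iteratedDeriv_vanish (bump_contDiff (n := ⊤)) (fun _ h => bump_of_nonpos h)
    (fun _ h => bump_of_one_le h) 1).2 t h
  rwa [iteratedDeriv_one] at this

theorem deriv_pulse_of_one_le {t : ℝ} (h : 1 ≤ t) : deriv pulse t = deriv bper t := by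
  have h1 := iteratedDeriv_pulse 1 t
  have h2 := congrFun (iteratedDeriv_bper 1) t
  rw [iteratedDeriv_one] at h1 h2
  rw [h1, h2, iteratedDeriv_one, deriv_bump_of_one_le h]
  simp [per]

theorem frc_of_one_le {ν r : ℝ} {ψ : ℝ → ℝ} {t : ℝ} (h : 1 ≤ t) (θ : T3) :
    frc ν r ψ t θ = ![0, deriv bper t * circ ψ (θ 0)
      - ν * (bper t * circ (deriv (deriv ψ)) (θ 0)), 0] := by
  unfold frc
  rw [deriv_bump_of_one_le h, deriv_pulse_of_one_le h, pulse_of_one_le h, zero_mul]

theorem frc_periodic {ν r : ℝ} {ψ : ℝ → ℝ} {t : ℝ} (h : 1 ≤ t) (θ : T3) :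
    frc ν r ψ (t + 1) θ = frc ν r ψ t θ := by
  rw [frc_of_one_le h, frc_of_one_le (by linarith), deriv_periodic bper_periodic t,
    bper_periodic t]

theorem bper_nonneg (t : ℝ) : 0 ≤ bper t := bump_nonneg _

theorem vel_global {ν r : ℝ} {ψ : ℝ → ℝ} (hψ : Function.Periodic ψ 1) (hs : ContDiff ℝ ∞ ψ) :
    IsGlobalSmoothSolution ν (frc ν r ψ) (vel r ψ) (fun _ _ => 0) :=
  ⟨vel_isSmooth hψ hs, contDiff_const, fun _ hT => vel_classical hψ hs hT⟩

/-- The Navier-Stokes part of the argument, for a general profile. -/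
theorem flow_part {ν : ℝ} (hν : 0 < ν) {r : ℝ} {ψ : ℝ → ℝ} (hψ : Function.Periodic ψ 1)
    (hs : ContDiff ℝ ∞ ψ) (hnn : ∀ s, 0 ≤ ψ s) {Q : Prop} (hQ : 0 < ψ (r * dispI) ↔ Q) :
    ∃ (u : ℝ → T3 → E3) (p : ℝ → T3 → ℝ),
      IsGlobalSmoothSolution ν (frc ν r ψ) u p ∧
      (∀ T : ℝ, 0 < T → ∀ v q, IsClassicalSolution ν T (frc ν r ψ) v q →
        ∀ t ∈ Set.Icc 0 T, v t = u t ∧ q t = p t) ∧
      (∃ X, IsTrajectory u 0 X) ∧
      ∀ X, IsTrajectory u 0 X → ((∃ t : ℝ, 0 ≤ t ∧ proj (X t) ∈ openSet) ↔ Q) := by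
  refine ⟨vel r ψ, fun _ _ => 0, vel_global hψ hs, ?_, ⟨_, traj_isTrajectory r hψ⟩, ?_⟩
  · intro T hT v q hv t ht
    exact IsClassicalSolution.unique hν.le hT (vel_classical hψ hs hT) hv t ht
  · intro X hX
    rw [traj_enters_iff hψ hnn hX, hQ]

theorem bper_pos_iff {r : ℝ} (h0 : 0 ≤ r) (h1 : r < 1) : 0 < bper (r * dispI) ↔ 0 < r := by
  have hI0 := dispI_pos
  have hI1 := dispI_lt_one
  have hlt : r * dispI < 1 := by nlinarith
  have h0' : 0 ≤ r * dispI := mul_nonneg h0 hI0.le
  have hf : Int.fract (r * dispI) = r * dispI := Int.fract_eq_self.2 ⟨h0', hlt⟩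
  unfold bper per
  rw [hf]
  constructor
  · intro h
    rcases h0.lt_or_eq with h' | h'
    · exact h'
    · rw [← h', zero_mul, bump_of_nonpos le_rfl] at h
      exact absurd h (lt_irrefl _)
  · intro h
    exact bump_pos (mul_pos h hI0) hlt

/-- Version 1 of the main theorem, given the computability part. -/
theorem question_of_effective {ν : ℝ} (hν : 0 < ν)
    (hE : ∃ compile : Machine × List ℕ → Nat.Partrec.Code, Computable compile ∧
      ∀ P, Computes (compile P) (frc ν (TM.rad P) bper)) : Question ν := by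
  obtain ⟨compile, hcomp, hC⟩ := hE
  refine ⟨0, openSet, compile, fun P => frc ν (TM.rad P) bper, openSet_isOpen,
    ⟨hcomp, fun P i => frc_isSmooth bper_periodic bper_contDiff i, hC,
      ⟨1, zero_le_one, fun M => ⟨⟨1, one_pos, fun w t ht x => frc_periodic ht x⟩, ?_⟩⟩⟩, ?_⟩
  · intro w w' t ht x
    simp only [frc_of_one_le ht]
  · intro M w
    refine flow_part hν bper_periodic bper_contDiff bper_nonneg ?_
    rw [bper_pos_iff (TM.rad_nonneg _) (lt_of_le_of_lt (TM.rad_le _) (by norm_num))]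
    exact TM.rad_pos_iff _

/-- The main theorem, given computability of the iterated derivatives of the bump. -/
theorem question_of_bumpUCR (hb : BumpUCR) {ν : ℝ} (hν : 0 < ν) (hc : IsComputableReal ν) :
    Question ν :=
  question_of_effective hν (exists_compiler hb hc ucr_rad (ψ := fun _ => bper) (ucr_bper hb)
    (fun _ i α t x => mixed_frc bper_periodic bper_contDiff i α t x))

end Vale.Agent.P113
end

section

namespace Vale.Agent.P113

open scoped ContDiff Topology
open Set Filter

/-! ## A rational recursion for the derivatives of the bump -/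

/-- `(y - y²)²`. -/
def bumpW (y : Frac) : Frac :=
  Frac.mul (Frac.add y (Frac.neg (Frac.mul y y))) (Frac.add y (Frac.neg (Frac.mul y y)))

/-- `1 - 2y - n (2y - 6y² + 4y³)`. -/
def bumpA (y : Frac) (n : ℕ) : Frac :=
  Frac.add (Frac.add (Frac.ofInt 1) (Frac.mul (Frac.ofInt (-2)) y))
    (Frac.mul (Frac.neg (Frac.ofNat n))
      (Frac.mul y (Frac.add (Frac.ofInt 2)
        (Frac.mul y (Frac.add (Frac.ofInt (-6)) (Frac.mul (Frac.ofInt 4) y))))))

/-- `2n + n(n-1)(1 - 6y + 6y²)`. -/
def bumpB (y : Frac) (n : ℕ) : Frac :=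
  Frac.mul (Frac.ofNat n) (Frac.add (Frac.ofInt 2)
    (Frac.mul (Frac.add (Frac.ofNat n) (Frac.ofInt (-1)))
      (Frac.add (Frac.ofInt 1)
        (Frac.mul y (Frac.add (Frac.ofInt (-6)) (Frac.mul (Frac.ofInt 6) y))))))

/-- `n(n-1)(n-2)(4y-2)`. -/
def bumpC (y : Frac) (n : ℕ) : Frac :=
  Frac.mul (Frac.mul (Frac.mul (Frac.ofNat n) (Frac.add (Frac.ofNat n) (Frac.ofInt (-1))))
    (Frac.add (Frac.ofNat n) (Frac.ofInt (-2))))
    (Frac.add (Frac.mul (Frac.ofInt 4) y) (Frac.ofInt (-2)))

/-- `n(n-1)(n-2)(n-3)`. -/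
def bumpD (n : ℕ) : Frac :=
  Frac.mul (Frac.mul (Frac.mul (Frac.ofNat n) (Frac.add (Frac.ofNat n) (Frac.ofInt (-1))))
    (Frac.add (Frac.ofNat n) (Frac.ofInt (-2)))) (Frac.add (Frac.ofNat n) (Frac.ofInt (-3)))

/-- One step of the recursion. -/
def bumpStep (y : Frac) (q : ℕ × (Frac × Frac × Frac × Frac)) : Frac × Frac × Frac × Frac :=
  (Frac.mul (Frac.add (Frac.add (Frac.add (Frac.mul (bumpA y q.1) q.2.1)
      (Frac.neg (Frac.mul (bumpB y q.1) q.2.2.1)))
      (Frac.neg (Frac.mul (bumpC y q.1) q.2.2.2.1)))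
      (Frac.neg (Frac.mul (bumpD q.1) q.2.2.2.2))) (Frac.inv (bumpW y)),
    q.2.1, q.2.2.1, q.2.2.2.1)

/-- State after `n` steps. -/
def bumpSt (y : Frac) (n : ℕ) : Frac × Frac × Frac × Frac :=
  Nat.rec (Frac.ofInt 1, Frac.ofInt 0, Frac.ofInt 0, Frac.ofInt 0) (fun k s => bumpStep y (k, s)) n

theorem bumpSt_succ (y : Frac) (n : ℕ) : bumpSt y (n + 1) = bumpStep y (n, bumpSt y n) := rfl

theorem val_bumpW (y : Frac) : fracVal (bumpW y) = (fracVal y - fracVal y ^ 2) ^ 2 := by
  simp only [bumpW, Frac.val_mul, Frac.val_add, Frac.val_neg]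
  ring

theorem val_bumpA (y : Frac) (n : ℕ) : fracVal (bumpA y n)
    = 1 - 2 * fracVal y - n * (2 * fracVal y - 6 * fracVal y ^ 2 + 4 * fracVal y ^ 3) := by
  simp only [bumpA, Frac.val_mul, Frac.val_add, Frac.val_neg, Frac.val_ofInt, Frac.val_ofNat]
  push_cast
  ring

theorem val_bumpB (y : Frac) (n : ℕ) : fracVal (bumpB y n)
    = 2 * n + n * (n - 1) * (1 - 6 * fracVal y + 6 * fracVal y ^ 2) := by
  simp only [bumpB, Frac.val_mul, Frac.val_add, Frac.val_ofInt, Frac.val_ofNat]
  push_cast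
  ring

theorem val_bumpC (y : Frac) (n : ℕ) : fracVal (bumpC y n)
    = n * (n - 1) * (n - 2) * (4 * fracVal y - 2) := by
  simp only [bumpC, Frac.val_mul, Frac.val_add, Frac.val_ofInt, Frac.val_ofNat]
  push_cast
  ring

theorem val_bumpD (n : ℕ) : fracVal (bumpD n)
    = n * (n - 1) * (n - 2) * (n - 3) := by
  simp only [bumpD, Frac.val_mul, Frac.val_add, Frac.val_ofInt, Frac.val_ofNat]
  push_cast
  ring

theorem bumpSt_spec (y : Frac) (h0 : 0 < fracVal y) (h1 : fracVal y < 1) (n : ℕ) :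
    fracVal (bumpSt y n).1 * bump (fracVal y) = iteratedDeriv n bump (fracVal y) ∧
    n * (fracVal (bumpSt y n).2.1 * bump (fracVal y))
      = n * iteratedDeriv (n - 1) bump (fracVal y) ∧
    n * (n - 1) * (fracVal (bumpSt y n).2.2.1 * bump (fracVal y))
      = n * (n - 1) * iteratedDeriv (n - 2) bump (fracVal y) ∧
    n * (n - 1) * (n - 2) * (fracVal (bumpSt y n).2.2.2 * bump (fracVal y))
      = n * (n - 1) * (n - 2) * iteratedDeriv (n - 3) bump (fracVal y) := by
  induction n with
  | zero => simp [bumpSt]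
  | succ n ih =>
    obtain ⟨i1, i2, i3, i4⟩ := ih
    rw [bumpSt_succ]
    have hy : 0 < fracVal y - fracVal y ^ 2 := by nlinarith
    have hW : 0 < fracVal (bumpW y) := by rw [val_bumpW]; positivity
    have hrec := bumpRec n (fracVal y)
    unfold BumpRec at hrec
    refine ⟨?_, ?_, ?_, ?_⟩
    · simp only [bumpStep, Frac.val_mul, Frac.val_add, Frac.val_neg, Frac.val_inv _ hW]
      rw [val_bumpA, val_bumpB, val_bumpC, val_bumpD, val_bumpW]
      rw [val_bumpW] at hW
      have hW' := hW.ne'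
      rw [mul_assoc, mul_comm, mul_assoc, inv_mul_eq_iff_eq_mul₀ hW', hrec]
      generalize iteratedDeriv n bump (fracVal y) = b0 at *
      generalize iteratedDeriv (n - 1) bump (fracVal y) = b1 at *
      generalize iteratedDeriv (n - 2) bump (fracVal y) = b2 at *
      generalize iteratedDeriv (n - 3) bump (fracVal y) = b3 at *
      generalize fracVal y = z at *
      linear_combination (1 - 2 * z - n * (2 * z - 6 * z ^ 2 + 4 * z ^ 3)) * i1
        - (2 + (n - 1) * (1 - 6 * z + 6 * z ^ 2)) * i2 - (n - 2) * (4 * z - 2) * i3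
        - (n - 3) * i4
    · simp only [bumpStep]
      push_cast
      rw [i1]
    · simp only [bumpStep]
      push_cast
      linear_combination (n + 1) * i2
    · simp only [bumpStep]
      push_cast
      linear_combination (n + 1) * i3

theorem iteratedDeriv_bump_eq (y : Frac) (h0 : 0 < fracVal y) (h1 : fracVal y < 1) (n : ℕ) :
    iteratedDeriv n bump (fracVal y)
      = fracVal (bumpSt y n).1 * Real.exp (-((fracVal y)⁻¹ + (1 - fracVal y)⁻¹)) := by
  rw [← (bumpSt_spec y h0 h1 n).1, bump_eq h0 h1]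

/-! ## Primitive recursiveness -/

theorem prim_bumpW : Primrec bumpW := by
  have h : Primrec (fun y : Frac => Frac.add y (Frac.neg (Frac.mul y y))) :=
    Frac.prim_add.comp Primrec.id (Frac.prim_neg.comp (Frac.prim_mul.comp Primrec.id Primrec.id))
  exact Frac.prim_mul.comp h h

theorem prim_bumpA : Primrec₂ bumpA := by
  have hy : Primrec (fun p : Frac × ℕ => p.1) := Primrec.fst
  have hn : Primrec (fun p : Frac × ℕ => Frac.ofNat p.2) := Frac.prim_ofNat.comp Primrec.snd
  have c : ∀ z : ℤ, Primrec (fun _ : Frac × ℕ => Frac.ofInt z) := fun z => Primrec.const _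
  exact Frac.prim_add.comp (Frac.prim_add.comp (c 1) (Frac.prim_mul.comp (c (-2)) hy))
    (Frac.prim_mul.comp (Frac.prim_neg.comp hn)
      (Frac.prim_mul.comp hy (Frac.prim_add.comp (c 2)
        (Frac.prim_mul.comp hy (Frac.prim_add.comp (c (-6)) (Frac.prim_mul.comp (c 4) hy))))))

theorem prim_bumpB : Primrec₂ bumpB := by
  have hy : Primrec (fun p : Frac × ℕ => p.1) := Primrec.fst
  have hn : Primrec (fun p : Frac × ℕ => Frac.ofNat p.2) := Frac.prim_ofNat.comp Primrec.snd
  have c : ∀ z : ℤ, Primrec (fun _ : Frac × ℕ => Frac.ofInt z) := fun z => Primrec.const _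
  exact Frac.prim_mul.comp hn (Frac.prim_add.comp (c 2)
    (Frac.prim_mul.comp (Frac.prim_add.comp hn (c (-1)))
      (Frac.prim_add.comp (c 1)
        (Frac.prim_mul.comp hy (Frac.prim_add.comp (c (-6)) (Frac.prim_mul.comp (c 6) hy))))))

theorem prim_bumpC : Primrec₂ bumpC := by
  have hy : Primrec (fun p : Frac × ℕ => p.1) := Primrec.fst
  have hn : Primrec (fun p : Frac × ℕ => Frac.ofNat p.2) := Frac.prim_ofNat.comp Primrec.snd
  have c : ∀ z : ℤ, Primrec (fun _ : Frac × ℕ => Frac.ofInt z) := fun z => Primrec.const _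
  exact Frac.prim_mul.comp (Frac.prim_mul.comp (Frac.prim_mul.comp hn
    (Frac.prim_add.comp hn (c (-1)))) (Frac.prim_add.comp hn (c (-2))))
    (Frac.prim_add.comp (Frac.prim_mul.comp (c 4) hy) (c (-2)))

theorem prim_bumpD : Primrec bumpD := by
  have hn : Primrec (fun p : ℕ => Frac.ofNat p) := Frac.prim_ofNat
  have c : ∀ z : ℤ, Primrec (fun _ : ℕ => Frac.ofInt z) := fun z => Primrec.const _
  exact Frac.prim_mul.comp (Frac.prim_mul.comp (Frac.prim_mul.comp hn
    (Frac.prim_add.comp hn (c (-1)))) (Frac.prim_add.comp hn (c (-2))))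
    (Frac.prim_add.comp hn (c (-3)))

theorem prim_bumpStep : Primrec₂ bumpStep := by
  have hy : Primrec (fun p : Frac × (ℕ × (Frac × Frac × Frac × Frac)) => p.1) := Primrec.fst
  have hn : Primrec (fun p : Frac × (ℕ × (Frac × Frac × Frac × Frac)) => p.2.1) :=
    Primrec.fst.comp Primrec.snd
  have hs : Primrec (fun p : Frac × (ℕ × (Frac × Frac × Frac × Frac)) => p.2.2) :=
    Primrec.snd.comp Primrec.snd
  have s1 : Primrec (fun p : Frac × (ℕ × (Frac × Frac × Frac × Frac)) => p.2.2.1) :=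
    Primrec.fst.comp hs
  have s2 : Primrec (fun p : Frac × (ℕ × (Frac × Frac × Frac × Frac)) => p.2.2.2.1) :=
    Primrec.fst.comp (Primrec.snd.comp hs)
  have s3 : Primrec (fun p : Frac × (ℕ × (Frac × Frac × Frac × Frac)) => p.2.2.2.2.1) :=
    Primrec.fst.comp (Primrec.snd.comp (Primrec.snd.comp hs))
  have s4 : Primrec (fun p : Frac × (ℕ × (Frac × Frac × Frac × Frac)) => p.2.2.2.2.2) :=
    Primrec.snd.comp (Primrec.snd.comp (Primrec.snd.comp hs))
  refine Primrec.pair ?_ (Primrec.pair s1 (Primrec.pair s2 s3))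
  exact Frac.prim_mul.comp (Frac.prim_add.comp (Frac.prim_add.comp (Frac.prim_add.comp
    (Frac.prim_mul.comp (prim_bumpA.comp hy hn) s1)
    (Frac.prim_neg.comp (Frac.prim_mul.comp (prim_bumpB.comp hy hn) s2)))
    (Frac.prim_neg.comp (Frac.prim_mul.comp (prim_bumpC.comp hy hn) s3)))
    (Frac.prim_neg.comp (Frac.prim_mul.comp (prim_bumpD.comp hn) s4)))
    (Frac.prim_inv.comp (prim_bumpW.comp hy))

theorem prim_bumpSt : Primrec₂ bumpSt := by
  refine Primrec.nat_rec (f := fun _ : Frac =>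
    (Frac.ofInt 1, Frac.ofInt 0, Frac.ofInt 0, Frac.ofInt 0))
    (g := fun y q => bumpStep y q) (Primrec.const _) ?_
  exact prim_bumpStep

/-! ## The derivatives of the bump at rational points are uniformly computable -/

/-- Whether `0 < y < 1`. -/
def inUnit (y : Frac) : Bool := Frac.lt (Frac.ofInt 0) y && Frac.lt y (Frac.ofInt 1)

theorem inUnit_iff (y : Frac) : inUnit y = true ↔ 0 < fracVal y ∧ fracVal y < 1 := by
  unfold inUnit
  rw [Bool.and_eq_true, Frac.lt_iff, Frac.lt_iff]
  simp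

theorem prim_inUnit : Primrec inUnit := by
  exact Primrec.and.comp (Frac.prim_lt.comp (Primrec.const _) Primrec.id)
    (Frac.prim_lt.comp Primrec.id (Primrec.const _))

theorem bump_ucr : UCR (fun p : ℕ × Frac => iteratedDeriv p.1 bump (fracVal p.2)) := by
  have hc : Computable (fun p : ℕ × Frac => inUnit p.2) :=
    prim_inUnit.to_comp.comp Computable.snd
  have hR : UCROn (fun p : ℕ × Frac => inUnit p.2 = true)
      (fun p => fracVal (bumpSt p.2 p.1).1) := by
    have : Computable (fun p : ℕ × Frac => (bumpSt p.2 p.1).1) :=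
      Computable.fst.comp (prim_bumpSt.to_comp.comp Computable.snd Computable.fst)
    exact ucrOn_frac this _
  have hE : UCROn (fun p : ℕ × Frac => inUnit p.2 = true)
      (fun p => Real.exp (-(fracVal (Frac.add (Frac.inv p.2)
        (Frac.inv (Frac.add (Frac.ofInt 1) (Frac.neg p.2))))))) := by
    refine UCROn.exp_neg (ucrOn_frac ?_ _) ?_
    · have h2 : Computable (fun p : ℕ × Frac => p.2) := Computable.snd
      exact Frac.prim_add.to_comp.comp (Frac.prim_inv.to_comp.comp h2)
        (Frac.prim_inv.to_comp.comp (Frac.prim_add.to_comp.comp (Computable.const _)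
          (Frac.prim_neg.to_comp.comp h2)))
    · intro p hp
      obtain ⟨h0, h1⟩ := (inUnit_iff _).1 hp
      have h1' : 0 < fracVal (Frac.add (Frac.ofInt 1) (Frac.neg p.2)) := by
        rw [Frac.val_add, Frac.val_neg, Frac.val_ofInt]
        push_cast
        linarith
      rw [Frac.val_add, Frac.val_inv _ h0, Frac.val_inv _ h1']
      positivity
  refine (UCR.cond (G := fun _ => 0) hc (hR.mul hE) (ucr_zero.on _)).congr ?_
  intro p
  cases h : inUnit p.2 with
  | true =>
    obtain ⟨h0, h1⟩ := (inUnit_iff _).1 h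
    have h1' : 0 < fracVal (Frac.add (Frac.ofInt 1) (Frac.neg p.2)) := by
      rw [Frac.val_add, Frac.val_neg, Frac.val_ofInt]
      push_cast
      linarith
    simp only [cond_true]
    rw [iteratedDeriv_bump_eq _ h0 h1, Frac.val_add, Frac.val_inv _ h0, Frac.val_inv _ h1',
      Frac.val_add, Frac.val_neg, Frac.val_ofInt]
    push_cast
    rfl
  | false =>
    simp only [cond_false]
    have hn : ¬ (0 < fracVal p.2 ∧ fracVal p.2 < 1) := by
      intro hc'
      rw [(inUnit_iff _).2 hc'] at h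
      exact absurd h (by simp)
    have hv := iteratedDeriv_vanish (bump_contDiff (n := ⊤)) (fun s hs => bump_of_nonpos hs)
      (fun s hs => bump_of_one_le hs) p.1
    rcases le_or_gt (fracVal p.2) 0 with h0 | h0
    · exact (hv.1 _ h0).symm
    · exact (hv.2 _ (not_lt.1 fun h1 => hn ⟨h0, h1⟩)).symm

end Vale.Agent.P113
end

section

namespace Vale.Agent.P113

theorem main (ν : ℝ) (hν : 0 < ν) (hc : IsComputableReal ν) : Question ν :=
  question_of_bumpUCR bump_ucr hν hc

end Vale.Agent.P113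
end

section

namespace Vale.Agent.P113

open scoped ContDiff Topology
open Set Filter Encodable

theorem bumpy_bump : Bumpy bump :=
  ⟨bump_contDiff, fun _ h => bump_of_nonpos h, fun _ h => bump_of_one_le h⟩

/-- The word with a given code number. -/
def wordOf (n : ℕ) : List ℕ := (decode (α := List ℕ) n).getD []

theorem wordOf_encode (w : List ℕ) : wordOf (encode w) = w := by
  simp [wordOf]

theorem prim_wordOf : Primrec wordOf :=
  Primrec.option_getD.comp Primrec.decode (Primrec.const [])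

/-- The amplitude of the bump number `n`. -/
noncomputable def coefM (M : Machine) (n : ℕ) : ℝ := TM.rad (M, wordOf n)

theorem coefM_nonneg (M : Machine) (n : ℕ) : 0 ≤ coefM M n := TM.rad_nonneg _

theorem abs_coefM_le (M : Machine) (n : ℕ) : |coefM M n| ≤ 1 := by
  rw [abs_of_nonneg (coefM_nonneg M n)]
  exact (TM.rad_le _).trans (by norm_num)

theorem coefM_encode_pos_iff (M : Machine) (w : List ℕ) :
    0 < coefM M (encode w) ↔ HaltsOn M w := by
  unfold coefM
  rw [wordOf_encode]
  exact TM.rad_pos_iff (M, w)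

/-- The profile of the periodic shear flow attached to a machine. -/
noncomputable def psiM (M : Machine) : ℝ → ℝ := per (phi bump (coefM M))

theorem psiM_periodic (M : Machine) : Function.Periodic (psiM M) 1 := per_periodic _

theorem psiM_contDiff (M : Machine) : ContDiff ℝ ∞ (psiM M) :=
  per_contDiff (bumpy_phi bumpy_bump (abs_coefM_le M)).smooth
    (bumpy_phi bumpy_bump (abs_coefM_le M)).left (bumpy_phi bumpy_bump (abs_coefM_le M)).right

theorem psiM_nonneg (M : Machine) (x : ℝ) : 0 ≤ psiM M x := by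
  unfold psiM per phi
  exact tsum_nonneg fun n => mul_nonneg (div_nonneg (coefM_nonneg M n) (Nat.cast_nonneg _))
    (bump_nonneg _)

theorem iteratedDeriv_psiM (M : Machine) (k : ℕ) (x : ℝ) :
    iteratedDeriv k (psiM M) x = iteratedDeriv k (phi bump (coefM M)) (Int.fract x) := by
  have h := bumpy_phi bumpy_bump (abs_coefM_le M)
  unfold psiM
  rw [iteratedDeriv_per h.smooth h.left h.right]
  rfl

/-- At a point of the `n`-th dyadic shell the profile is positive exactly when the machine halts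
on the word number `n`. -/
theorem psiM_pos_iff (M : Machine) (w : List ℕ) {x : ℝ}
    (h1 : 1 < 2 ^ (encode w + 1) * x) (h2 : 2 ^ (encode w) * x < 1) :
    0 < psiM M x ↔ HaltsOn M w := by
  have hx : 0 < x := by
    by_contra h
    push Not at h
    have : (2 : ℝ) ^ (encode w + 1) * x ≤ 0 := mul_nonpos_of_nonneg_of_nonpos (by positivity) h
    linarith
  have hx1 : x < 1 := by
    have : (1 : ℝ) * x ≤ 2 ^ (encode w) * x :=
      mul_le_mul_of_nonneg_right (one_le_pow₀ (by norm_num)) hx.le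
    linarith
  have hf : Int.fract x = x := Int.fract_eq_self.2 ⟨hx.le, hx1⟩
  rw [← coefM_encode_pos_iff]
  unfold psiM per
  rw [hf, phi_of_shell bumpy_bump (abs_coefM_le M) (encode w) h1.le h2.le]
  have hb : 0 < bump (2 ^ (encode w + 1) * x - 1) := by
    refine bump_pos (by linarith) ?_
    have : (2 : ℝ) ^ (encode w + 1) * x = 2 * (2 ^ (encode w) * x) := by ring
    linarith
  have hfac : (0 : ℝ) < ((encode w).factorial : ℝ) := by exact_mod_cast Nat.factorial_pos _
  constructor
  · intro h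
    by_contra hc
    have h0 : coefM M (encode w) = 0 := le_antisymm (not_lt.1 hc) (coefM_nonneg _ _)
    rw [h0, zero_div, zero_mul] at h
    exact lt_irrefl _ h
  · intro h
    positivity

/-! ### Computability of the derivatives of the profile -/

/-- The numerator of the fractional part. -/
def fractNum (x : Frac) : ℕ :=
  if 0 ≤ x.1 then x.1.toNat % (x.2 + 1) else (x.2 + 1 - (-x.1).toNat % (x.2 + 1)) % (x.2 + 1)

theorem fractNum_lt (x : Frac) : fractNum x < x.2 + 1 := by
  unfold fractNum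
  split_ifs
  · exact Nat.mod_lt _ (Nat.succ_pos _)
  · exact Nat.mod_lt _ (Nat.succ_pos _)

theorem fractNum_cast (x : Frac) : ((fractNum x : ℕ) : ℤ) = x.1 % ((x.2 + 1 : ℕ) : ℤ) := by
  unfold fractNum
  split_ifs with h
  · push_cast
    rw [Int.toNat_of_nonneg h]
  · push Not at h
    have hlt : (-x.1).toNat % (x.2 + 1) < x.2 + 1 := Nat.mod_lt _ (Nat.succ_pos _)
    have hk : (((-x.1).toNat : ℕ) : ℤ) = -x.1 := Int.toNat_of_nonneg (by omega)
    rw [Int.natCast_mod, Nat.cast_sub hlt.le, Int.natCast_mod, hk]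
    rw [Int.sub_emod, Int.emod_emod_of_dvd _ (dvd_refl _), ← Int.sub_emod]
    rw [sub_neg_eq_add, add_comm, Int.add_emod_right]

theorem fracVal_fractNum (x : Frac) :
    fracVal ((fractNum x : ℤ), x.2) = Int.fract (fracVal x) := by
  unfold fracVal
  simp only
  have h := Int.fract_div_intCast_eq_div_intCast_mod (k := ℝ) (m := x.1) (n := x.2 + 1)
  push_cast at h
  rw [h]
  congr 1
  have := congrArg (fun z : ℤ => (z : ℝ)) (fractNum_cast x)
  simpa using this

theorem prim_fractNum : Primrec fractNum := by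
  unfold fractNum
  refine Primrec.ite (prim_int_le.comp (Primrec.const 0) Primrec.fst) ?_ ?_
  · exact Primrec.nat_mod.comp (prim_toNat.comp Primrec.fst) (Primrec.succ.comp Primrec.snd)
  · refine Primrec.nat_mod.comp ?_ (Primrec.succ.comp Primrec.snd)
    exact Primrec.nat_sub.comp (Primrec.succ.comp Primrec.snd)
      (Primrec.nat_mod.comp (prim_negToNat.comp Primrec.fst) (Primrec.succ.comp Primrec.snd))

/-- The number of the dyadic shell containing `a / (q + 1)`. -/
def shell (p : ℕ × ℕ) : ℕ := Nat.findGreatest (fun n => 2 ^ n * p.1 ≤ p.2) p.2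

theorem shell_le {a q : ℕ} (ha : a ≤ q) : 2 ^ (shell (a, q)) * a ≤ q :=
  Nat.findGreatest_spec (P := fun n => 2 ^ n * a ≤ q) (m := 0) (Nat.zero_le _) (by simpa using ha)

theorem lt_shell {a q : ℕ} (h0 : 0 < a) : q < 2 ^ (shell (a, q) + 1) * a := by
  by_contra h
  push Not at h
  by_cases hq : shell (a, q) + 1 ≤ q
  · exact Nat.findGreatest_is_greatest (P := fun n => 2 ^ n * a ≤ q) (Nat.lt_succ_self _) hq h
  · have h1 : shell (a, q) ≤ q := Nat.findGreatest_le q
    have h2 : shell (a, q) = q := by omega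
    rw [h2] at h
    have h3 : q < 2 ^ q := Nat.lt_two_pow_self
    have h4 : 2 ^ q ≤ 2 ^ (q + 1) * a := by
      calc 2 ^ q ≤ 2 ^ (q + 1) := Nat.pow_le_pow_right (by norm_num) (by omega)
        _ = 2 ^ (q + 1) * 1 := by ring
        _ ≤ 2 ^ (q + 1) * a := Nat.mul_le_mul_left _ h0
    omega

theorem prim_shell : Primrec shell := by
  unfold shell
  refine Primrec.nat_findGreatest Primrec.snd ?_
  refine Primrec.nat_le.comp ?_ (Primrec.snd.comp Primrec.fst)
  exact Primrec.nat_mul.comp (prim_nat_pow.comp (Primrec.const 2) Primrec.snd)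
    (Primrec.fst.comp Primrec.fst)

theorem prim_factorial : Primrec Nat.factorial := by
  have h : Primrec (fun n : ℕ => Nat.rec (motive := fun _ => ℕ) 1 (fun k r => (k + 1) * r) n) :=
    Primrec.nat_rec₁ 1
      (Primrec.nat_mul.comp (Primrec.succ.comp Primrec.fst) Primrec.snd).to₂
  refine h.of_eq fun n => ?_
  induction n with
  | zero => rfl
  | succ n ih => rw [Nat.factorial_succ, ← ih]

theorem ucr_radM : UCR TM.rad :=
  ucr_of_pow (A := fun p : (Machine × List ℕ) × ℕ => TM.radApprox p.1 p.2)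
    TM.computable_radApprox (fun P n => TM.radApprox_error P n)

theorem ucr_coefM : UCR (fun p : Machine × ℕ => coefM p.1 p.2) :=
  ucr_radM.comp (Primrec.fst.pair (prim_wordOf.comp Primrec.snd)).to_comp

theorem iteratedDeriv_psiM_frac (M : Machine) (k : ℕ) (x : Frac) :
    iteratedDeriv k (psiM M) (fracVal x) =
      bif decide (fractNum x = 0) then 0 else
        coefM M (shell (fractNum x, x.2)) *
          fracVal (((2 ^ (shell (fractNum x, x.2) + 1)) ^ k : ℕ),
            (shell (fractNum x, x.2)).factorial - 1) *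
          iteratedDeriv k bump
            (fracVal (((2 ^ (shell (fractNum x, x.2) + 1) * fractNum x : ℕ) : ℤ) -
              ((x.2 + 1 : ℕ) : ℤ), x.2)) := by
  have hB := bumpy_phi bumpy_bump (abs_coefM_le M)
  rw [iteratedDeriv_psiM, ← fracVal_fractNum]
  have hlt := fractNum_lt x
  by_cases h0 : fractNum x = 0
  · simp only [h0, decide_true, cond_true]
    exact hB.iteratedDeriv_left k (by simp [fracVal])
  · simp only [h0, decide_false, cond_false]
    have hpos : 0 < fractNum x := Nat.pos_of_ne_zero h0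
    set a := fractNum x with ha
    set n := shell (a, x.2) with hn
    have h1 : 2 ^ n * a ≤ x.2 := shell_le (by omega)
    have h2 : x.2 < 2 ^ (n + 1) * a := lt_shell hpos
    have hq : (0 : ℝ) < (x.2 : ℝ) + 1 := by positivity
    have hval : fracVal ((a : ℤ), x.2) = (a : ℝ) / ((x.2 : ℝ) + 1) := by simp [fracVal]
    have h1' : (2 : ℝ) ^ n * fracVal ((a : ℤ), x.2) ≤ 1 := by
      rw [hval, ← mul_div_assoc, div_le_one hq]
      have : ((2 ^ n * a : ℕ) : ℝ) ≤ (x.2 : ℝ) := by exact_mod_cast h1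
      push_cast at this
      linarith
    have h2' : (1 : ℝ) ≤ 2 ^ (n + 1) * fracVal ((a : ℤ), x.2) := by
      rw [hval, ← mul_div_assoc, one_le_div hq]
      have : ((x.2 + 1 : ℕ) : ℝ) ≤ ((2 ^ (n + 1) * a : ℕ) : ℝ) := by exact_mod_cast h2
      push_cast at this
      linarith
    rw [iteratedDeriv_phi_of_shell bumpy_bump (abs_coefM_le M) k n h2' h1']
    have e1 : (2 : ℝ) ^ (n + 1) * fracVal ((a : ℤ), x.2) - 1 =
        fracVal (((2 ^ (n + 1) * a : ℕ) : ℤ) - ((x.2 + 1 : ℕ) : ℤ), x.2) := by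
      rw [hval]
      unfold fracVal
      push_cast
      field_simp
    have e2 : fracVal (((2 ^ (n + 1)) ^ k : ℕ), n.factorial - 1) =
        ((2 : ℝ) ^ (n + 1)) ^ k / (n.factorial : ℝ) := by
      unfold fracVal
      have hf : 1 ≤ n.factorial := Nat.factorial_pos n
      have : ((n.factorial - 1 : ℕ) : ℝ) + 1 = (n.factorial : ℝ) := by
        rw [Nat.cast_sub hf]; simp
      rw [this]
      push_cast
      rfl
    rw [e1, e2]
    ring

/-- The derivatives of the profiles at rational points are uniformly computable. -/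
theorem ucr_psiM (hbump : UCR (fun q : ℕ × Frac => iteratedDeriv q.1 bump (fracVal q.2))) :
    UCR (fun q : Machine × ℕ × Frac => iteratedDeriv q.2.1 (psiM q.1) (fracVal q.2.2)) := by
  have hnum : Primrec (fun q : Machine × ℕ × Frac => fractNum q.2.2) :=
    prim_fractNum.comp (Primrec.snd.comp Primrec.snd)
  have hden : Primrec (fun q : Machine × ℕ × Frac => q.2.2.2) :=
    Primrec.snd.comp (Primrec.snd.comp Primrec.snd)
  have hsh : Primrec (fun q : Machine × ℕ × Frac => shell (fractNum q.2.2, q.2.2.2)) :=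
    prim_shell.comp (hnum.pair hden)
  have hk : Primrec (fun q : Machine × ℕ × Frac => q.2.1) := Primrec.fst.comp Primrec.snd
  have hpow : Primrec (fun q : Machine × ℕ × Frac => 2 ^ (shell (fractNum q.2.2, q.2.2.2) + 1)) :=
    prim_nat_pow.comp (Primrec.const 2) (Primrec.succ.comp hsh)
  have u1 : UCR (fun q : Machine × ℕ × Frac => coefM q.1 (shell (fractNum q.2.2, q.2.2.2))) :=
    ucr_coefM.comp (Primrec.fst.pair hsh).to_comp
  have u2 : UCR (fun q : Machine × ℕ × Frac =>
      fracVal (((2 ^ (shell (fractNum q.2.2, q.2.2.2) + 1)) ^ q.2.1 : ℕ),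
            (shell (fractNum q.2.2, q.2.2.2)).factorial - 1)) := by
    refine ucr_frac (Primrec.to_comp ?_)
    exact (prim_natCast.comp (prim_nat_pow.comp hpow hk)).pair
      (Primrec.nat_sub.comp (prim_factorial.comp hsh) (Primrec.const 1))
  have u3 : UCR (fun q : Machine × ℕ × Frac => iteratedDeriv q.2.1 bump
            (fracVal (((2 ^ (shell (fractNum q.2.2, q.2.2.2) + 1) * fractNum q.2.2 : ℕ) : ℤ) -
              ((q.2.2.2 + 1 : ℕ) : ℤ), q.2.2.2))) := by
    refine hbump.comp (g := fun q : Machine × ℕ × Frac => (q.2.1,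
      ((((2 ^ (shell (fractNum q.2.2, q.2.2.2) + 1) * fractNum q.2.2 : ℕ) : ℤ) -
              ((q.2.2.2 + 1 : ℕ) : ℤ), q.2.2.2) : Frac))) (Primrec.to_comp ?_)
    refine hk.pair (Primrec.pair ?_ hden)
    exact prim_subNat.comp (Primrec.nat_mul.comp hpow hnum) (Primrec.succ.comp hden)
  have hdec : Computable (fun q : Machine × ℕ × Frac => decide (fractNum q.2.2 = 0)) := by
    have : PrimrecPred (fun q : Machine × ℕ × Frac => fractNum q.2.2 = 0) :=
      Primrec.eq.comp hnum (Primrec.const 0)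
    exact this.decide.to_comp
  refine UCR.congr (UCR.cond hdec (UCR.on ucr_zero _) (UCR.on ((u1.mul u2).mul u3) _)) ?_
  rintro ⟨M, k, x⟩
  exact (iteratedDeriv_psiM_frac M k x).symm

end Vale.Agent.P113
end

section

namespace Vale.Agent.P113

open scoped ContDiff Topology
open Set Filter Encodable

theorem exists_frac (r : ℚ) : ∃ x : Frac, fracVal x = (r : ℝ) := by
  refine ⟨(r.num, r.den - 1), ?_⟩
  unfold fracVal
  have h1 : 1 ≤ r.den := r.pos
  have : ((r.den - 1 : ℕ) : ℝ) + 1 = (r.den : ℝ) := by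
    rw [Nat.cast_sub h1]; simp
  rw [this]
  exact (Rat.cast_def r).symm

/-- A rational number which is close enough to the inverse of the displacement factor. -/
theorem exists_kappa : ∃ κ : Frac, 1 / 2 < fracVal κ * dispI ∧ fracVal κ * dispI < 1 := by
  have hI := dispI_pos
  have hlt : 1 / (2 * dispI) < 1 / dispI := by
    apply one_div_lt_one_div_of_lt hI
    linarith
  obtain ⟨r, h1, h2⟩ := exists_rat_btwn hlt
  obtain ⟨x, hx⟩ := exists_frac r
  refine ⟨x, ?_, ?_⟩
  · rw [hx]
    have h3 : 1 / (2 * dispI) * dispI < (r : ℝ) * dispI := mul_lt_mul_of_pos_right h1 hI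
    have h4 : 1 / (2 * dispI) * dispI = 1 / 2 := by field_simp
    rwa [h4] at h3
  · rw [hx]
    have h3 : (r : ℝ) * dispI < 1 / dispI * dispI := mul_lt_mul_of_pos_right h2 hI
    have h4 : 1 / dispI * dispI = 1 := by field_simp
    rwa [h4] at h3

/-- The amplitude of the transient: a rational number depending on the input only. -/
def ampF (κ : Frac) (w : List ℕ) : Frac := Frac.mul κ (Frac.pow (1, 1) (encode w))

theorem fracVal_ampF (κ : Frac) (w : List ℕ) :
    fracVal (ampF κ w) = fracVal κ * (1 / 2) ^ (encode w) := by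
  unfold ampF
  rw [Frac.val_mul, Frac.val_pow]
  congr 2
  simp [fracVal]
  norm_num

theorem ucr_ampF (κ : Frac) : UCR (fun P : Machine × List ℕ => fracVal (ampF κ P.2)) := by
  refine ucr_frac (Primrec.to_comp ?_)
  exact Frac.prim_mul.comp (Primrec.const κ)
    (Frac.prim_pow.comp (Primrec.const (1, 1)) (Primrec.encode.comp Primrec.snd))

theorem psiM_ampF_pos_iff {κ : Frac} (h1 : 1 / 2 < fracVal κ * dispI)
    (h2 : fracVal κ * dispI < 1) (M : Machine) (w : List ℕ) :
    0 < psiM M (fracVal (ampF κ w) * dispI) ↔ HaltsOn M w := by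
  have hp : (2 : ℝ) ^ (encode w) * (1 / 2) ^ (encode w) = 1 := by
    rw [← mul_pow]; norm_num
  apply psiM_pos_iff
  · rw [fracVal_ampF]
    have : (2 : ℝ) ^ (encode w + 1) * (fracVal κ * (1 / 2) ^ (encode w) * dispI) =
        2 * (fracVal κ * dispI) * ((2 : ℝ) ^ (encode w) * (1 / 2) ^ (encode w)) := by ring
    rw [this, hp]
    linarith
  · rw [fracVal_ampF]
    have : (2 : ℝ) ^ (encode w) * (fracVal κ * (1 / 2) ^ (encode w) * dispI) =
        (fracVal κ * dispI) * ((2 : ℝ) ^ (encode w) * (1 / 2) ^ (encode w)) := by ring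
    rw [this, hp]
    linarith

theorem deriv_pulse_of_le_one {t : ℝ} (h0 : 0 ≤ t) (h : t ≤ 1) : deriv pulse t = 0 := by
  rcases h.lt_or_eq with h' | h'
  · have h1 := iteratedDeriv_pulse 1 t
    rw [iteratedDeriv_one, Int.fract_eq_self.2 ⟨h0, h'⟩, sub_self] at h1
    exact h1
  · subst h'
    have hv := iteratedDeriv_vanish (bump_contDiff (n := ⊤)) (fun _ h => bump_of_nonpos h)
      (fun _ h => bump_of_one_le h) 1
    have h1 := iteratedDeriv_pulse 1 1
    rw [iteratedDeriv_one, hv.1 (Int.fract 1) (by simp), hv.2 1 le_rfl, sub_self] at h1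
    exact h1

theorem pulse_of_le_one {t : ℝ} (h0 : 0 ≤ t) (h : t ≤ 1) : pulse t = 0 := by
  rcases h.lt_or_eq with h' | h'
  · exact pulse_of_lt_one h0 h'
  · subst h'
    rw [pulse_of_one_le le_rfl]
    simp [bper, per, bump_of_nonpos]

theorem frc_of_le_one {ν r : ℝ} {ψ : ℝ → ℝ} {t : ℝ} (h0 : 0 ≤ t) (h : t ≤ 1) (θ : T3) :
    frc ν r ψ t θ = ![deriv bump t * r, 0, 0] := by
  unfold frc
  rw [deriv_pulse_of_le_one h0 h, pulse_of_le_one h0 h]
  simp

theorem ucr_psiM_pair (hb : BumpUCR) :
    UCR (fun q : (Machine × List ℕ) × ℕ × Frac =>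
      iteratedDeriv q.2.1 (psiM q.1.1) (fracVal q.2.2)) :=
  (ucr_psiM hb).comp (g := fun q : (Machine × List ℕ) × ℕ × Frac => (q.1.1, q.2))
    ((Primrec.fst.comp Primrec.fst).pair Primrec.snd).to_comp

theorem computable_ampF (κ : Frac) : Computable (ampF κ) := by
  unfold ampF
  exact (Frac.prim_mul.comp (Primrec.const κ)
    (Frac.prim_pow.comp (Primrec.const _) Primrec.encode)).to_comp

/-- The split version of the question. -/
def SplitQuestion (ν : ℝ) : Prop :=
  ∃ (a : T3) (O : Set T3) (compile : Machine × List ℕ → Nat.Partrec.Code)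
    (f : Machine × List ℕ → ℝ → T3 → E3),
    IsOpen O ∧ IsSplitForceCompiler compile f ∧
    ∀ (M : Machine) (w : List ℕ), ∃ (u : ℝ → T3 → E3) (p : ℝ → T3 → ℝ),
      IsGlobalSmoothSolution ν (f (M, w)) u p ∧
      (∀ T : ℝ, 0 < T → ∀ v q, IsClassicalSolution ν T (f (M, w)) v q →
        ∀ t ∈ Set.Icc 0 T, v t = u t ∧ q t = p t) ∧
      (∃ X, IsTrajectory u a X) ∧
      ∀ X, IsTrajectory u a X → ((∃ t : ℝ, 0 ≤ t ∧ proj (X t) ∈ O) ↔ HaltsOn M w)

/-- The split version of the main theorem. -/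
theorem splitQuestion_of_bumpUCR (hb : BumpUCR) {ν : ℝ} (hν : 0 < ν) (hc : IsComputableReal ν) :
    SplitQuestion ν := by
  obtain ⟨κ, hκ1, hκ2⟩ := exists_kappa
  obtain ⟨compile, hcomp, hC⟩ := exists_compiler (A := Machine × List ℕ) hb hc (ucr_ampF κ)
    (ψ := fun P => psiM P.1) (ucr_psiM_pair hb)
    (f := fun P => frc ν (fracVal (ampF κ P.2)) (psiM P.1))
    (fun P i α t x => mixed_frc (psiM_periodic P.1) (psiM_contDiff P.1) i α t x)
  have htail : ∀ M : Machine,
      (∃ τ : ℝ, 0 < τ ∧ ∀ (w : List ℕ) (t : ℝ), 1 ≤ t → ∀ x,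
        frc ν (fracVal (ampF κ w)) (psiM M) (t + τ) x =
          frc ν (fracVal (ampF κ w)) (psiM M) t x) ∧
      ∀ (w w' : List ℕ) (t : ℝ), 1 ≤ t → ∀ x,
        frc ν (fracVal (ampF κ w)) (psiM M) t x = frc ν (fracVal (ampF κ w')) (psiM M) t x :=
    fun M => ⟨⟨1, one_pos, fun w t ht x => frc_periodic ht x⟩, fun w w' t ht x => by
      simp only [frc_of_one_le ht]⟩
  refine ⟨0, openSet, compile, fun P => frc ν (fracVal (ampF κ P.2)) (psiM P.1), openSet_isOpen,
    ⟨⟨hcomp, fun P i => frc_isSmooth (psiM_periodic P.1) (psiM_contDiff P.1) i, hC,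
      ⟨1, zero_le_one, htail⟩⟩, ⟨1, zero_le_one, ⟨deriv bump, ampF κ, computable_ampF κ, ?_⟩,
      htail⟩⟩, ?_⟩
  · intro M w t h0 h1 x
    exact frc_of_le_one h0 h1 x
  · intro M w
    exact flow_part hν (psiM_periodic M) (psiM_contDiff M) (psiM_nonneg M)
      (psiM_ampF_pos_iff hκ1 hκ2 M w)

end Vale.Agent.P113
end

section

namespace Vale.Agent.P113

theorem mainTwo (ν : ℝ) (hν : 0 < ν) (hc : IsComputableReal ν) : SplitQuestion ν :=
  splitQuestion_of_bumpUCR bump_ucr hν hc

end Vale.Agent.P113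
end
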